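import Crest.Agent.N250.Mt.Geo

/-!
# Row 250 (helper66): matching on an end of the shrinker, for any `Geo`
-/

set_option autoImplicit false
open Set Filter Topology

noncomputable section

namespace Crest.Agent.N250.Mc

open Po Mt WS Gc Cj Lp

theorem _root_.Crest.Agent.N250.Mt.Nr.mono {c : ℂ} {ε C ε' C' : ℝ} {r : ℝ × ℝ → ℂ} {z : ℝ × ℝ}
    (h : Nr c ε C r z) (h1 : ε ≤ ε') (h2 : C ≤ C') : Nr c ε' C' r z :=
  ⟨h.1.trans h1, h.2.1.trans h1, h.2.2.1.trans h1, h.2.2.2.1.trans h2, h.2.2.2.2.1.trans h2,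
    h.2.2.2.2.2.trans h2⟩

theorem j_sub {r ρ : ℝ × ℝ → ℂ} {z : ℝ × ℝ} (h : ContDiffAt ℝ 2 r z) (hρ : ContDiffAt ℝ 2 ρ z) :
    j1 (fun y => r y - ρ y) z = j1 r z - j1 ρ z ∧ j2 (fun y => r y - ρ y) z = j2 r z - j2 ρ z := by
  have e := jet_sub h hρ
  exact ⟨Prod.ext (congrFun e 0) (Prod.ext (congrFun e 1) (congrFun e 2)),
    Prod.ext (congrFun e 3) (Prod.ext (congrFun e 4) (congrFun e 5))⟩

variable {X : Type} [TopologicalSpace X] [MeasurableSpace X] {G : Geo X} {ψ : ℝ × ℝ → X}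
  {Q : N222.E (Fin 3) ≃ₗᵢ[ℝ] N222.E (Fin 3)} {r : ℝ × ℝ → ℝ} {q : ℝ × ℝ} {ε C : ℝ}

/-- the radius of the graph of `w` -/
def rG (G : Geo X) (ψ : ℝ × ℝ → X) (Q : N222.E (Fin 3) ≃ₗᵢ[ℝ] N222.E (Fin 3)) (r : ℝ × ℝ → ℝ)
    (w : G.SmC) (y : ℝ × ℝ) : ℂ := r y + w.1 (ψ y) / nom G ψ Q y

theorem cd_rG (h : Pl G ψ Q r q) (w : G.SmC) : ContDiffAt ℝ 2 (rG G ψ Q r w) q :=
  (cd_ofReal h.sm).add (((h.pm.cd w.2).mul (h.cd_nom.inv h.nom_ne)).congr_of_eventuallyEq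
    (Eventually.of_forall fun _ => div_eq_mul_inv _ _))

/-- the bound of the jet of `nom⁻¹` -/
def cN (C : ℝ) : ℝ := 2 * (cQ (C + 2) + 1) * (C + 2)

theorem bd_tau (h : Pl G ψ Q r q) (n : Nr (√2 : ℝ) ε C (fun y => (r y : ℂ)) q) (hε : ε ≤ 1 / 10) :
    Bd (cQ (C + 2) + 1) (tau G ψ Q r) q := by
  have b := n.bdQ hε (cd_ofReal h.sm)
  have e : (fun y => tau G ψ Q r y * tau G ψ Q r y) =ᶠ[𝓝 q] Qr fun y => (r y : ℂ) :=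
    h.ev.mono fun y hy => by
      simp only
      rw [← sq, hy.tau_sq, hy.pc.QC_eq]; rfl
  have d := h.cd_tau.differentiableAt (by simp)
  have e0 : ‖tau G ψ Q r q‖ * ‖tau G ψ Q r q‖ = ‖Qr (fun y => (r y : ℂ)) q‖ := by
    rw [← norm_mul]; exact congrArg _ e.self_of_nhds
  have g := n.Qr_ge hε
  rw [norm_mul] at g
  have g2 := (n.norm hε).2
  have t0 := norm_nonneg (tau G ψ Q r q)
  have t1 : 1 / 2 ≤ ‖tau G ψ Q r q‖ := by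
    by_contra hc
    nlinarith [norm_nonneg (Qr (fun y => (r y : ℂ)) q), norm_nonneg ((r q : ℂ))]
  have k : ∀ w, ‖fderiv ℝ (Qr fun y => (r y : ℂ)) q w‖ ≤ cQ (C + 2) →
      ‖fderiv ℝ (tau G ψ Q r) q w‖ ≤ cQ (C + 2) + 1 := fun w hw => by
    rw [← e.fderiv_eq, Lp.fd_mul d d, mul_comm (fderiv ℝ (tau G ψ Q r) q w), ← two_mul, norm_mul,
      norm_mul, Complex.norm_two] at hw
    nlinarith [norm_nonneg (fderiv ℝ (tau G ψ Q r) q w)]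
  exact ⟨h.cd_tau.of_le one_le_two, by nlinarith [b.b0], k _ b.b1, k _ b.b2⟩

theorem bd_nom (h : Pl G ψ Q r q) (n : Nr (√2 : ℝ) ε C (fun y => (r y : ℂ)) q) (hε : ε ≤ 1 / 10) :
    Bd (cN C) (fun y => (nom G ψ Q y)⁻¹) q :=
  ((bd_tau h n hε).mul ((n.bd hε (cd_ofReal h.sm)).1.inv (n.norm hε).1)).congr
    (h.ev.mono fun y hy => by
      simp only [tau]
      field_simp [hy.ne, hy.nom_ne])

theorem norm_fr_sq (θ a b c : ℝ) : ‖fr Q θ a b c‖ ^ 2 = a * a + b * b + c * c := by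
  rw [← real_inner_self_eq_norm_sq, inner_fr]

theorem fd_x (h : Pl G ψ Q r q) (v : ℝ × ℝ) :
    fderiv ℝ (G.M.x ∘ ψ) q v = fr Q q.2 v.1 (fderiv ℝ r q v) (r q * v.2) := by
  rw [← fd_pX (h.sm.differentiableAt (by simp))]
  exact congrArg (fun T : ℝ × ℝ →L[ℝ] N222.E (Fin 3) => T v)
    (EventuallyEq.fderiv_eq (f₁ := G.M.x ∘ ψ) h.eq)

theorem norm_cx_le (u : N222.E (Fin 3)) (a : Fin 3) : ‖cx u a‖ ≤ ‖u‖ := by
  rw [cx, Complex.norm_real]; exact PiLp.norm_apply_le u a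

theorem d_le (h : Pl G ψ Q r q) (n : Nr (√2 : ℝ) ε C (fun y => (r y : ℂ)) q) (hε : ε ≤ 1 / 10)
    (w : G.SmC) : ‖d1 (fun y => w.1 (ψ y)) q‖ ≤ 3 * ∑ a, ‖(G.SC.D a w).1 (ψ q)‖ ∧
      ‖d2 (fun y => w.1 (ψ y)) q‖ ≤ 3 * ∑ a, ‖(G.SC.D a w).1 (ψ q)‖ := by
  have k : ∀ v, ‖fderiv ℝ (G.M.x ∘ ψ) q v‖ ^ 2 ≤ 3 ^ 2 →
      ‖fderiv ℝ (fun y => w.1 (ψ y)) q v‖ ≤ 3 * ∑ a, ‖(G.SC.D a w).1 (ψ q)‖ := fun v hv => by
    rw [h.pm.fd, Finset.mul_sum]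
    refine (norm_sum_le _ _).trans (Finset.sum_le_sum fun a _ => ?_)
    rw [norm_mul]
    exact mul_le_mul_of_nonneg_right ((norm_cx_le _ a).trans
      (le_of_sq_le_sq hv (by norm_num))) (norm_nonneg _)
  have a0 := (n.norm hε).2
  have a1 := n.2.1
  have a2 := n.2.2.1
  rw [h.d1C] at a1
  rw [h.d2C] at a2
  rw [Complex.norm_real, Real.norm_eq_abs] at a0 a1 a2
  have b0 := abs_le.1 a0
  have b1 := abs_le.1 (a1.trans hε)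
  have b2 := abs_le.1 (a2.trans hε)
  refine ⟨k _ ?_, k _ ?_⟩ <;> rw [fd_x h, norm_fr_sq]
  · change 1 * 1 + d1 r q * d1 r q + r q * 0 * (r q * 0) ≤ _
    nlinarith
  · change 0 * 0 + d2 r q * d2 r q + r q * 1 * (r q * 1) ≤ _
    nlinarith

/-- the Gaussian energy density of `w / nom` -/
theorem en_le (h : Pl G ψ Q r q) (n : Nr (√2 : ℝ) ε C (fun y => (r y : ℂ)) q) (hε : ε ≤ 1 / 10)
    (w : G.SmC) {D : ℝ × ℝ → ℂ} (e : D =ᶠ[𝓝 q] fun y => w.1 (ψ y) * (nom G ψ Q y)⁻¹) :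
    ‖D q‖ * (‖d1 D q‖ + ‖d2 D q‖) ≤
      (11 * cN C ^ 2 + 1) * (‖w.1 (ψ q)‖ ^ 2 + ∑ a, ‖(G.SC.D a w).1 (ψ q)‖ ^ 2) := by
  have b := bd_nom h n hε
  obtain ⟨k1, k2⟩ := d_le h n hε w
  have dw := (h.pm.cd w.2).differentiableAt (by simp)
  have K0 := b.nn
  have k : ∀ v, ‖fderiv ℝ (fun y => w.1 (ψ y)) q v‖ ≤ 3 * ∑ a, ‖(G.SC.D a w).1 (ψ q)‖ →
      ‖fderiv ℝ (fun y => (nom G ψ Q y)⁻¹) q v‖ ≤ cN C →
      ‖fderiv ℝ D q v‖ ≤ cN C * (‖w.1 (ψ q)‖ + 3 * ∑ a, ‖(G.SC.D a w).1 (ψ q)‖) := fun v h1 h2 => by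
    rw [e.fderiv_eq, Lp.fd_mul dw b.dif]
    refine (norm_add_le _ _).trans ?_
    rw [norm_mul, norm_mul]
    have := mul_le_mul_of_nonneg_left h2 (norm_nonneg (w.1 (ψ q)))
    have := mul_le_mul h1 b.b0 (norm_nonneg _) (by positivity)
    linarith
  have h0 : ‖D q‖ ≤ cN C * ‖w.1 (ψ q)‖ := by
    rw [e.self_of_nhds, norm_mul, mul_comm]
    exact mul_le_mul_of_nonneg_right b.b0 (norm_nonneg _)
  refine (mul_le_mul h0 (add_le_add (k _ k1 b.b1) (k _ k2 b.b2)) (by positivity)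
    (by positivity)).trans ?_
  simp only [Fin.sum_univ_three]
  generalize ‖w.1 (ψ q)‖ = u, ‖(G.SC.D 0 w).1 (ψ q)‖ = a0, ‖(G.SC.D 1 w).1 (ψ q)‖ = a1,
    ‖(G.SC.D 2 w).1 (ψ q)‖ = a2, cN C = K
  have i : u * (2 * u + 6 * (a0 + a1 + a2)) ≤ 11 * (u ^ 2 + (a0 ^ 2 + a1 ^ 2 + a2 ^ 2)) := by
    nlinarith [sq_nonneg (u - a0), sq_nonneg (u - a1), sq_nonneg (u - a2), sq_nonneg a0,
      sq_nonneg a1, sq_nonneg a2]
  have := mul_le_mul_of_nonneg_left i (sq_nonneg K)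
  nlinarith [sq_nonneg u, sq_nonneg a0, sq_nonneg a1, sq_nonneg a2]

/-- the right side of the equation in the polar chart -/
def EP (G : Geo X) (ψ : ℝ × ℝ → X) (Q : N222.E (Fin 3) ≃ₗᵢ[ℝ] N222.E (Fin 3)) (s : ℝ × ℝ → ℂ)
    (q : ℝ × ℝ) : ℂ := -(nom G ψ Q q * (PRj q.1 (j1 s q) (j2 s q) / (Qr s q * s q)))

/-- **matching**: `κ` cuts the nonlinearity off (`0` for `a ≤ x`), `r₁` is the cut-off end
(`r₁ = r` for `b < x`) -/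
theorem geo : ∃ ε : ℝ, 0 < ε ∧ ε ≤ 1 / 10 ∧ ∀ C : ℝ, ∃ R₁ : ℝ, ∀ R, R₁ ≤ R →
    ∀ {X : Type} [TopologicalSpace X] [MeasurableSpace X] [T2Space X] [SecondCountableTopology X]
      [BorelSpace X] (G : Geo X) (ψ : ℝ × ℝ → X) (Q : N222.E (Fin 3) ≃ₗᵢ[ℝ] N222.E (Fin 3))
      (r : ℝ × ℝ → ℝ) (w : G.SmC) (r₁ κ : ℝ × ℝ → ℂ) (a b : ℝ),
    (∀ q : ℝ × ℝ, R ≤ q.1 → Pl G ψ Q r q ∧ Nr (√2 : ℝ) ε C (fun y => (r y : ℂ)) q ∧ Bd C κ q ∧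
      ‖1 - κ q‖ + ‖κ q‖ ≤ 1) →
    (∀ x θ, R < x → ψ (x, θ + 2 * Real.pi) = ψ (x, θ)) → Per r → Per κ →
    InjOn ψ (Ioi R ×ˢ Ico 0 (2 * Real.pi)) →
    G.gC w ≠ ⊤ → G.gC (G.SC.LL w) ≠ ⊤ → (∀ q : ℝ × ℝ, a ≤ q.1 → κ q = 0) →
    (∀ q : ℝ × ℝ, R ≤ q.1 → q.1 ≤ a → Nr (√2 : ℝ) ε C (rG G ψ Q r w) q) → Cn 2 R r₁ →
    (∀ q : ℝ × ℝ, R < q.1 → q.1 ≤ a → Nr (√2 : ℝ) ε C r₁ q ∧ PRj q.1 (j1 r₁ q) (j2 r₁ q) = 0) →
    (∀ q : ℝ × ℝ, b < q.1 → r₁ q = r q) → (∀ θ, rG G ψ Q r w (R, θ) = r₁ (R, θ)) →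
    (∀ q : ℝ × ℝ, R < q.1 → ∃ u : G.SmC,
      (κ q = 1 ∨ ∀ᶠ y in 𝓝 q, u.1 (ψ y) = nom G ψ Q y * (r₁ y - r y)) ∧
      (1 - κ q) * (G.SC.LL (w - u)).1 (ψ q) = κ q * EP G ψ Q (rG G ψ Q r w) q) →
    ∀ q : ℝ × ℝ, R ≤ q.1 → rG G ψ Q r w q = r₁ q := by
  obtain ⟨ε, h0, h1, H⟩ := match_q
  refine ⟨ε, h0, h1, fun C => ?_⟩
  obtain ⟨R₁, H⟩ := H C
  refine ⟨R₁, fun R hR X _ _ _ _ _ G ψ Q r w r₁ κ a b hP pψ pr pκ inj g0 g1 κ0 n2 c1 n1 far bd eq => ?_⟩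
  have k0 : ∀ q : ℝ × ℝ, a < q.1 → κ =ᶠ[𝓝 q] 0 := fun q hq => by
    filter_upwards [(isOpen_half a).mem_nhds hq] with y hy using κ0 y (le_of_lt hy)
  have s1 : ∀ q : ℝ × ℝ, R < q.1 → ContDiffAt ℝ 2 r₁ q := fun q hq =>
    c1.op.contDiffAt ((isOpen_half R).mem_nhds hq)
  refine H R hR (fun y => (r y : ℂ)) r₁ (rG G ψ Q r w) κ (fun q hq => ?_) (fun x θ hx => ?_) c1
    (fun q hq => ?_) bd ?_ fun q hq => ?_
  · obtain ⟨p, n, k1, k2⟩ := hP q hq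
    exact ⟨cd_ofReal p.sm, cd_rG p w, k1, k2, n,
      (le_or_gt q.1 a).symm.imp (k0 q) (n2 q hq)⟩
  · refine ⟨by rw [pr x θ], ?_, pκ x θ⟩
    simp only [rG, nom, pr x θ, pψ x θ hx, frC, Real.cos_add_two_pi, Real.sin_add_two_pi, dot]
  · exact (le_or_gt q.1 a).symm.imp (k0 q) (n1 q hq)
  · refine (lo_geo (fun q hq => ⟨(hP q hq.le).1, (hP q hq.le).2.1⟩) h1 inj g0 g1).mono
      (R := max R b) (c := 11 * cN C ^ 2 + 1) (by positivity) fun q hq => ?_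
    have q1 : R < q.1 := (le_max_left _ _).trans_lt hq.1
    have q2 : b < q.1 := (le_max_right _ _).trans_lt hq.1
    obtain ⟨p, n, -⟩ := hP q q1.le
    have e := (j_sub (cd_rG p w) (s1 q q1)).1
    have e1 : d1 (rG G ψ Q r w) q - d1 r₁ q = _ := (congrArg (·.2.1) e).symm
    have e2 : d2 (rG G ψ Q r w) q - d2 r₁ q = _ := (congrArg (·.2.2) e).symm
    rw [e1, e2]
    refine en_le p n h1 w (D := fun y => rG G ψ Q r w y - r₁ y) ?_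
    filter_upwards [(isOpen_half b).mem_nhds q2] with y hy
    rw [far y hy, rG, add_sub_cancel_left, div_eq_mul_inv]
  · obtain ⟨u, hu, e⟩ := eq q hq
    obtain ⟨p, -⟩ := hP q hq.le
    refine mul_left_cancel₀ p.nom_ne ?_
    rw [EP] at e
    rcases hu with hu | hu
    · rw [hu] at e ⊢
      linear_combination e
    · have c := cd_rG p w
      rw [LL_pol p (w - u) (c.sub (s1 q hq)) ?_, (j_sub c (s1 q hq)).1, (j_sub c (s1 q hq)).2] at e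
      · linear_combination e
      · filter_upwards [hu, p.ev] with y h2 h3
        change w.1 (ψ y) - u.1 (ψ y) = _
        rw [h2, rG]
        field_simp [h3.nom_ne]
        ring

end Crest.Agent.N250.Mc

end
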