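import Crest.Agent.N250.R0.Core
import Crest.Agent.N250.Mc.Geo

/-!
# Row 250 (helper66): matching, the two radii
-/

set_option autoImplicit false
open Crest.GeometryTopology.MCF

noncomputable section

namespace Crest.Agent.N250.R0.St

open Wr B1

variable {S : Mv} (T : St S)

/-- the cut-off end -/
def r1 (j : Fin T.p) (z : Par T.ℓ) (q : ℝ × ℝ) : ℂ :=
  T.rS j q + ((1 - st (T.R + 1 / 3) (T.R + 2 / 3) q.1 : ℝ) : ℂ) *
    ((2 * T.vU z q) ^ (1 / 2 : ℂ) - T.rS j q)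

/-- the cut-off `χ'` in the chart -/
def k1 (q : ℝ × ℝ) : ℂ := ((1 - st (T.R + 1 / 10) (T.R + 1 / 5) q.1 : ℝ) : ℂ)

end Crest.Agent.N250.R0.St

end
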