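import Crest.Agent.N250.Me.End
import Crest.Agent.N250.Mc.Defs
import Crest.Agent.N250.Se.Dic
import Crest.Agent.N250.R0.Leaf

/-!
# Row 250 (helper65): matching, the cut-off end
-/

set_option autoImplicit false
open Set Filter Topology
open Crest.GeometryTopology.MCF

noncomputable section

namespace Crest.Agent.N250.R0

open Wr B1 Mt

variable {S : Mv}

theorem ex138 : Ex (13 / 8) (7 / 4) := by unfold Ex; norm_num

namespace St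

variable {T : St S} {j : Fin T.p} {z : Par T.ℓ}

theorem r1_eq (T : St S) (j : Fin T.p) (z : Par T.ℓ) : T.r1 j z = Me.r1 (T.rS j)
    (fun q => ((1 - st (T.R + 1 / 3) (T.R + 2 / 3) q.1 : ℝ) : ℂ)) (Me.rU T.R z (T.U z)) := rfl

theorem r1_of_le {q : ℝ × ℝ} (hq : q.1 ≤ T.R + 1 / 3) : T.r1 j z q = Me.rU T.R z (T.U z) q := by
  rw [r1_eq]
  exact Me.r1_eq (by simp only [st_zero (by linarith : T.R + 1 / 3 < T.R + 2 / 3) hq]; simp)

theorem r1_ev {q : ℝ × ℝ} (hq : q.1 < T.R + 1 / 3) : T.r1 j z =ᶠ[𝓝 q] Me.rU T.R z (T.U z) :=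
  ((isOpen_lt continuous_fst continuous_const).eventually_mem hq).mono fun _ hy => r1_of_le (le_of_lt hy)

theorem Good.cn_r1 (h : T.Good) (hz : z ∈ T.Dm) : Cn 2 T.R (T.r1 j z) := by
  rw [r1_eq]
  refine Me.cn_r1 (b := T.R + 2 / 3) (by linarith) (Me.rU_c2 (T.hU.sol z hz).jet (h.reg z hz).2)
    (fun q hq => ⟨(T.cd_rS (T.eR_lt_R.trans_le hq)).of_le two_le_infty, ?_⟩) (fun q hq => ?_)
    fun x θ _ => ⟨T.per_rS j x θ, rfl, Me.rU_per x θ⟩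
  · exact (Complex.ofRealCLM.contDiff.comp (contDiff_const.sub
      (((contDiff_st _ _).of_le two_le_infty).comp contDiff_fst))).contDiffAt
  · simp only [st_one (by linarith : T.R + 1 / 3 < T.R + 2 / 3) hq.le]; simp

theorem sz (h1 : 32 ≤ T.k.K1) (h2 : T.k.ε1 ≤ 1 / 36) : Sz T.R T.k.K1 (13 / 8) (7 / 4) T.k.ε1 :=
  ⟨ex138, by linarith [T.R_ge], h1, h2⟩

theorem sl (hz : z ∈ T.Dm) : Sl T.R T.k.K1 (13 / 8) (7 / 4) T.k.ε T.k.ε1 z (T.U z) :=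
  T.hU.sl (by linarith [T.k.K1_ge]) T.k.C_pos.le T.k.small' hz

theorem a_small {δ : ℝ} (hδ : 0 < δ) (hz : z ∈ T.Dm) (hX : 3 * (T.R + 1) ^ 2 / δ < z.1.re) :
    ‖z.2.1‖ * (T.R + 1) ^ 2 ≤ δ := by
  have h1 := Gi.adm_norm (by linarith [T.k.K1_ge]) hz.2.2.2.1
  have h2 : 1 ≤ z.1.re := by linarith [hz.1, T.R_ge]
  rw [div_lt_iff₀ hδ] at hX
  have h3 : ‖z.2.1‖ * z.1.re ≤ 5 / 2 :=
    le_trans (mul_le_mul_of_nonneg_left (by nlinarith) (norm_nonneg _)) h1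
  nlinarith [mul_le_mul_of_nonneg_left hX.le (norm_nonneg z.2.1), mul_le_mul_of_nonneg_right h3 hδ.le]

end St

/-- **(A)** the cut-off end is close to the cylinder and solves the equation near `x = R` -/
theorem end_nr {ε : ℝ} (hε : 0 < ε) (S : Mv) (e : Ends S) : Ev e fun T => T.Good → ∃ X1 : ℝ,
    ∀ j, ∀ z ∈ T.Dm, X1 < z.1.re → Cn 2 T.R (T.r1 j z) ∧
      (∀ q : ℝ × ℝ, T.R < q.1 → q.1 ≤ T.R + 1 / 5 → Nr (√2 : ℝ) ε 1 (T.r1 j z) q ∧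
        PRj q.1 (j1 (T.r1 j z) q) (j2 (T.r1 j z) q) = 0) ∧
      ∀ θ, ‖T.r1 j z (T.R, θ) - (√2 : ℝ)‖ ≤ ε := by
  set δ := min (ε / 14) (1 / 140)
  have d0 : 0 < δ := lt_min (by positivity) (by norm_num)
  have d1 : δ ≤ ε / 14 := min_le_left _ _
  have d2 : δ ≤ 1 / 140 := min_le_right _ _
  refine ⟨δ, 32, 1, d0, one_pos, fun k _ h2 h3 _ => ⟨0, fun T _ hk _ hG => ?_⟩⟩
  subst hk
  refine ⟨3 * (T.R + 1) ^ 2 / δ, fun j z hz hX => ⟨hG.cn_r1 hz, fun q q0 q1 => ?_, fun θ => ?_⟩⟩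
  · obtain ⟨-, n, p⟩ := Me.rU_nr (St.sz h3 (by linarith)) (St.sl hz) h2 d2 (St.a_small d0 hz hX)
      (hG.reg z hz).2 q0 (by linarith)
    have ev := St.r1_ev (j := j) (z := z) (q := q) (by linarith)
    rw [(Me.j_congr ev).1, (Me.j_congr ev).2]
    exact ⟨Me.nr_mono (Me.nr_congr ev n) (by linarith) le_rfl, p⟩
  · rw [St.r1_of_le (by simp)]
    have := (Me.vk_le (St.sz h3 (by linarith)) (St.sl hz) h2 (St.a_small d0 hz hX)
      (q := (T.R, θ)) ⟨le_rfl, by simp⟩).1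
    exact Me.sqrt_near.trans (by change 2 * ‖vk _ _ _ _ _ 0 _ - 1‖ ≤ _; linarith)

end Crest.Agent.N250.R0

end
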