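import Crest.Agent.N250.R0.Core
import Crest.Agent.N250.Fv.End
import Crest.Agent.N250.Ec.Tube
import Crest.Agent.N250.Lp.Lin
import Crest.Agent.N250.Ro.Rot
import Crest.Agent.N250.Wr.Cut

/-!
# Row 250 (helper30): the core equation holds off the tubes beyond `R + 1/3` once the core matches
the ends
-/

set_option autoImplicit false
open Set Filter Topology
open scoped InnerProductSpace
open Crest.GeometryTopology.MCF

noncomputable section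

namespace Crest.Agent.N250.Mq

open WS Wr B1 Gc Cj R0

variable {S : Mv} {T : St S} {j : Fin T.p} {q : ℝ × ℝ}

theorem stat (T : St S) : S.Static := T.P.shr.st

theorem psi_eq (hq : T.e.R < q.1) : T.ψ j q = Ec.psi T.e j q :=
  Subtype.ext ((T.hψ j q hq).trans (Ec.psi_val hq).symm)

theorem ev_gt {a : ℝ} (hq : a < q.1) : ∀ᶠ y : ℝ × ℝ in 𝓝 q, a < y.1 :=
  (Ec.isOpen_half a).mem_nhds hq

theorem ca_psi (hq : T.e.R < q.1) : ContinuousAt (T.ψ j) q :=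
  (Ec.ca_psi hq).congr ((ev_gt hq).mono fun _ hy => (psi_eq hy).symm)

theorem pl (hq : T.e.R < q.1) : Lp.Pl T.G (T.ψ j) (T.e.Q j) (T.e.r j) q :=
  ⟨(ev_gt hq).mono fun _ hy => ca_psi hy, (Ec.cd_r hq).of_le (WithTop.coe_le_coe.2 (le_top : (2 : ℕ∞) ≤ ⊤)),
    Ec.r_pos _ _ hq, (ev_gt hq).mono fun y hy => T.hψ j y hy⟩

theorem det_pos (hq : T.e.R < q.1) : 0 < Po.det (T.G.M.x ∘ T.ψ j) q := by
  have h := (pl (j := j) hq).pm.sg_sq.symm.trans ((pl hq).sg_sq.trans (pl hq).QC_eq)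
  have := Ec.r_pos T.e j hq
  rw [Complex.ofReal_inj.1 h]
  positivity

theorem inj_psi {I : Set ℝ} (hI : I ⊆ Ioi T.e.R) :
    InjOn (T.ψ j) (I ×ˢ Ico 0 (2 * Real.pi)) := fun x hx y hy h => by
  have hp : Po.Per fun z : ℝ × ℝ => (z.1, toIcoMod Real.two_pi_pos 0 z.2) := fun s θ => by
    simp only [toIcoMod_add_right]
  have h1 := Ec.crd_psi (j := j) hp (hI hx.1)
  rw [← psi_eq (hI hx.1), h, psi_eq (hI hy.1), Ec.crd_psi hp (hI hy.1),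
    (toIcoMod_eq_self _).2 (by simpa using hy.2), (toIcoMod_eq_self _).2 (by simpa using hx.2)] at h1
  exact h1.symm

theorem zone (j : Fin T.p) {a b : ℝ} (ha : T.R ≤ a) (hab : a ≤ b) (hb : b ≤ T.R + 1) :
    Fv.Zone T.G (T.ψ j) T.R a b :=
  have h : ∀ x ∈ Ioo a b, T.e.R < x := fun x hx => by linarith [T.hR, hx.1]
  ⟨ha, hab, hb, fun q hq => (pl (h _ hq)).pm, fun q hq => det_pos (h _ hq), inj_psi h⟩

theorem psi_tube {a : ℝ} (hq : T.e.R < q.1) (ha : a < q.1) :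
    ((T.ψ j q : E), (0 : ℝ)) ∈ tube T.e j a := by rw [psi_eq hq]; exact Ec.psi_tube hq ha

theorem cu_psi (hq : T.e.R < q.1) (a b : ℝ) :
    (T.cu j a b).1 (T.ψ j q) = st (T.R + a) (T.R + b) q.1 := by
  rw [psi_eq hq]; exact Ec.chi_psi hq _ _

theorem cu_psi_ne {i : Fin T.p} (hi : i ≠ j) (hq : T.e.R < q.1) {a b : ℝ} (ha : -7 < a)
    (hab : a < b) : (T.cu i a b).1 (T.ψ j q) = 0 := by
  rw [psi_eq hq]
  exact Ec.chi_psi_ne (stat T) hi (by linarith [T.hR]) (by linarith) hq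

theorem ze_psi (hq : T.e.R < q.1) {a b : ℝ} (ha : -7 < a) (hab : a < b) :
    (T.ze a b).1 (T.ψ j q) = 1 - st (T.R + a) (T.R + b) q.1 := by
  rw [psi_eq hq]
  exact Ec.zeta_psi (stat T) (by linarith [T.hR]) (by linarith) hq

theorem ip_psi (hq : T.e.R < q.1) :
    ((⟪S.n ((T.ψ j q : E), 0), wv T.e j (T.ψ j q)⟫_ℝ : ℝ) : ℂ) = T.nu j q * T.rS j q := by
  have : (T.e.r j q : ℂ) ≠ 0 := by exact_mod_cast (Ec.r_pos T.e j hq).ne'
  rw [St.nu, St.rS, T.hψ j q hq, Complex.ofReal_div, div_mul_cancel₀ _ this]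

theorem nu_ne (hq : T.R - 6 < q.1) : T.nu j q ≠ 0 := fun h => by
  have h0 : T.e.R < q.1 := by linarith [T.hR]
  have h1 := T.nu_ge j _ (psi_tube h0 hq)
  have h2 := ip_psi (j := j) h0
  rw [h, zero_mul, Complex.ofReal_eq_zero] at h2
  rw [h2] at h1
  norm_num at h1

/-- the transversal field in the polar frame -/
theorem Z_psi (hq : T.R - 5 < q.1) (c : Fin 3) :
    ((T.Z c).1 (T.ψ j q) : ℂ) = frC (fQ (T.e.Q j)) q.2 0 (T.nu j q)⁻¹ 0 c := by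
  have h0 : T.e.R < q.1 := by linarith [T.hR]
  have h1 : (T.e.r j q : ℂ) ≠ 0 := by exact_mod_cast (Ec.r_pos T.e j h0).ne'
  have h2 := nu_ne (j := j) (q := q) (by linarith)
  have h3 : ((wv T.e j (T.ψ j q) c : ℝ) : ℂ) = frC (fQ (T.e.Q j)) q.2 0 (T.e.r j q) 0 c := by
    have := congrFun (cx_fr (T.e.Q j) q.2 0 (T.e.r j q) 0) c
    rw [← Ec.wv_psi h0, ← psi_eq h0, Complex.ofReal_zero] at this
    exact this
  rw [T.Zr j _ (psi_tube h0 hq), Complex.ofReal_div, ip_psi h0, h3, St.rS, div_eq_inv_mul, smul_frC]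
  simp only [mul_zero]
  congr 1
  field_simp

theorem x_psi (hq : T.e.R < q.1) (c : Fin 3) :
    ((T.G.S.x c).1 (T.ψ j q) : ℂ) = frC (fQ (T.e.Q j)) q.2 q.1 (T.rS j q) 0 c :=
  congrFun (pl hq).pb_x.self_of_nhds c

variable {F : Fa T} {σ : Scale T.G}

theorem mv_psi (hq : T.R - 1 ≤ q.1) (M : Nq.Mt (Fin T.p)) (u : Fin 3 → T.G.R) (c : Fin 3) :
    (F.D.mv M u c).1 (T.ψ j q) = ∑ d, M j c d * ((u d).1 (T.ψ j q) : ℂ) := by
  have h0 : T.e.R < q.1 := by linarith [T.hR]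
  have e : ∀ i d, ev T.G (T.ψ j q) (M i c d • T.G.oR (T.χr i * u d)) =
      M i c d * (((T.χr i).1 (T.ψ j q) * (u d).1 (T.ψ j q) : ℝ) : ℂ) := fun _ _ => rfl
  change ev T.G _ (∑ i, ∑ d, M i c d • T.G.oR (T.χr i * u d)) = _
  simp only [map_sum, e]
  rw [Finset.sum_eq_single j (fun i _ hi => by
    simp [cu_psi_ne hi h0 (show (-7 : ℝ) < -3 / 2 by norm_num) (show (-3 / 2 : ℝ) < -1 by norm_num)])
    (by simp), cu_psi h0, st_one (by linarith) (by linarith)]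
  simp

/-- the rotated transversal field in the rotated frame -/
theorem VV_psi (hq : T.R - 1 ≤ q.1) (β : T.Bt) : val (F.D.VV (T.TT β)) (T.ψ j q) =
    frC (fR (T.e.Q j) fun i => β (j, i)) q.2 0 (T.nu j q)⁻¹ 0 := by
  funext c
  have h1 := Ro.TT_frC (β := fun i => β (j, i)) (θ := q.2) (on_fQ (T.e.Q j)) 0 (T.nu j q)⁻¹ 0 c
  refine Eq.trans ?_ h1
  change ((T.Z c).1 (T.ψ j q) : ℂ) + (F.D.mv (T.TT β) T.Z c).1 (T.ψ j q) = _
  simp only [mv_psi hq, Z_psi (show T.R - 5 < q.1 by linarith)]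
  rfl

/-- the surface is a polar graph in the rotated frame -/
theorem pb_Xh (hq : T.R - 1 ≤ q.1) (u : T.G.SmC) (β : T.Bt) :
    pb (F.D.Xh u (T.TT β)) (T.ψ j) q = pC (fR (T.e.Q j) fun i => β (j, i)) (T.rW j u) q := by
  have h0 : T.e.R < q.1 := by linarith [T.hR]
  funext c
  have h1 := Ro.TT_frC (β := fun i => β (j, i)) (θ := q.2) (on_fQ (T.e.Q j)) q.1 (T.rS j q) 0 c
  change ((T.G.S.x c).1 (T.ψ j q) : ℂ) + ((F.D.mv (T.TT β) T.G.S.x c).1 (T.ψ j q) +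
    u.1 (T.ψ j q) * val (F.D.VV (T.TT β)) (T.ψ j q) c) = _
  rw [VV_psi hq, mv_psi hq, ← add_assoc]
  simp only [x_psi h0]
  refine (congrArg (· + _) h1).trans ?_
  rw [smul_frC]
  refine (add_frC ..).trans ?_
  simp only [pC, St.rW, mul_zero, add_zero, div_eq_mul_inv]
  rfl

theorem pb_Y (hq : T.R - 1 ≤ q.1) (ξ : F.Ξ σ) :
    pb (F.Y ξ) (T.ψ j) q = pC (fR (T.e.Q j) fun i => ξ.2.2 (j, i)) (T.rW j (F.w ξ)) q :=
  pb_Xh hq _ _

theorem on_fR (Q : E ≃ₗᵢ[ℝ] E) (β : Fin 2 → ℂ) : On (fR Q β) := Ro.on_rf (on_fQ Q) β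

/-- the multiplier functions vanish on the tubes -/
theorem ph_ev {p : S.sl 0} (hp : ((p : E), (0 : ℝ)) ∈ tube T.e j (T.R - 2)) (c : F.I → ℂ) :
    (F.D.ph c).1 =ᶠ[𝓝 p] (0 : T.G.SmC).1 := by
  have h : ∀ k, ∀ᶠ y in 𝓝 p, (F.φ k).1 y = 0 := fun k =>
    notMem_tsupport_iff_eventuallyEq.1 fun h => (F.supp k p h).2 j hp
  filter_upwards [eventually_all.2 h] with y hy
  have e : ∀ k, ev T.G y (c k • T.G.oR (F.φ k)) = c k * ((F.φ k).1 y : ℂ) := fun _ => rfl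
  change ev T.G y (∑ k, c k • T.G.oR (F.φ k)) = 0
  simp [map_sum, e, hy]

theorem Mu_zero {p : S.sl 0} (hp : ((p : E), (0 : ℝ)) ∈ tube T.e j (T.R - 2)) (u : T.G.SmC)
    (M : Nq.Mt (Fin T.p)) (c : F.I → ℂ) : (F.D.Mu u M c).1 p = 0 := by
  have h := ph_ev (F := F) hp c
  have h1 : (u * F.D.ph c).1 =ᶠ[𝓝 p] (0 : T.G.SmC).1 := h.mono fun y hy =>
    (congrArg (u.1 y * ·) hy).trans (mul_zero _)
  have h2 : ∀ a, ev T.G p (T.G.SC.D a (u * F.D.ph c)) = 0 := fun a => by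
    rw [ev_apply, (Lp.D_ev h1 a).self_of_nhds, T.G.dsC.D_zero]; rfl
  have h3 : ev T.G p (F.D.ph c) = 0 := h.self_of_nhds
  rw [← ev_apply]
  simp only [Nq.Dt.Mu, map_sub, map_mul, map_sum, h2, h3, mul_zero, Finset.sum_const_zero, sub_zero]

theorem off_of_not {a b : ℝ} (ha : T.e.R ≤ a) (hab : a < b) {p : S.sl 0}
    (hp : ((p : E), (0 : ℝ)) ∉ tube T.e j a) : ((p : E), (0 : ℝ)) ∈ Off T.e j b :=
  (tube_or_off' (stat T) (ha.trans_lt hab) hab p.2 j).resolve_left hp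

theorem zeta_of_not {a b : ℝ} (ha : T.e.R < a) (hab : a < b) {p : S.sl 0}
    (hp : ∀ j, ((p : E), (0 : ℝ)) ∉ tube T.e j a) : zeta T.e a b p = 1 :=
  Finset.prod_eq_one fun i _ => by
    have : chi T.e i a b p = 0 := not_not.1 fun h =>
      hp i (tube_of_chi (p := ((p : E), 0)) (stat T) ha hab p.2 h)
    rw [this, sub_zero]

theorem val_toA {p : S.sl 0} {f : T.G.SmC} (h : f.1 p = 0) : (σ.val (EC.toA σ f)).1 p = 0 := by
  rw [EC.toA]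
  split_ifs
  · exact h
  · rw [map_zero]; rfl

/-- the sources vanish inside -/
theorem sE_zero {p : S.sl 0} (hp : ∀ j, ((p : E), (0 : ℝ)) ∉ tube T.e j (T.R + 1 / 10))
    (v : ℝ × ℝ → ℂ) : (T.sE j v).1 p = 0 := by
  have h0 := T.hR
  have h1 : T.χ'.1 p = 1 := zeta_of_not (by linarith) (by linarith) hp
  have h2 : ∀ᶠ y : S.sl 0 in 𝓝 p, ∀ i, ((y : E), (0 : ℝ)) ∈ Off T.e i (T.R + 1 / 3) :=
    (continuous_subtype_val.prodMk continuous_const).continuousAt.eventually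
      ((isOpen_allOff _).mem_nhds fun i => off_of_not (by linarith) (by linarith) (hp i))
  have h3 : (T.G.oR T.χ * T.uE j v).1 =ᶠ[𝓝 p] (T.uE j v).1 := h2.mono fun y hy => by
    have : T.χ.1 y = 1 := zeta_one (p := ((y : E), 0)) (by linarith) hy
    change (T.χ.1 y : ℂ) * _ = _
    rw [this, Complex.ofReal_one, one_mul]
  change (T.G.ρ.1 p : ℂ) * ((T.G.SC.LL (T.G.oR T.χ * T.uE j v)).1 p -
    (T.χ'.1 p : ℂ) * (T.G.SC.LL (T.uE j v)).1 p) = 0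
  rw [Lp.LL_congr h3, h1, Complex.ofReal_one, one_mul, sub_self, mul_zero]

variable {N : ℕ} {X : ℂ} {y : Fin F.n → ℂ} {a : Fin T.p → ℂ} {ξ : F.Ξ σ}

/-- the first component of the system at a point -/
theorem eq_pt (hv : (σ.val (F.NL ξ)).1 = F.nl ξ) (hs : F.Sv N X y a ξ) (p : S.sl 0) :
    (σ.val ξ.1).1 p = F.nl ξ p +
      ∑ j, (σ.val (EC.toA σ (T.sE j (T.vU (F.zE N X a ξ j))))).1 p := by
  have h := congrArg (fun u => ev T.G p (σ.val u.1)) hs.eq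
  simp only [Fa.Φ, map_sub, map_sum, Prod.fst_zero, map_zero] at h
  rw [ev_apply, ev_apply, hv, sub_sub, sub_eq_zero] at h
  exact h

theorem EQ_in (hv : (σ.val (F.NL ξ)).1 = F.nl ξ) (hs : F.Sv N X y a ξ) {p : S.sl 0}
    (hp : ∀ j, ((p : E), (0 : ℝ)) ∉ tube T.e j (T.R + 1 / 10)) : F.EQ ξ p = 0 := by
  have h0 := T.hR
  have h1 : T.χ'.1 p = 1 := zeta_of_not (by linarith) (by linarith) hp
  have h := eq_pt hv hs p
  rw [Finset.sum_eq_zero fun i _ => val_toA (sE_zero hp _), Fa.nl, h1, Complex.ofReal_one] at h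
  have h2 : (T.G.ρ.1 p : ℂ) ≠ 0 := by exact_mod_cast (rho_pos (e := T.e) T.P.a ((p : E), 0)).ne'
  exact (mul_eq_zero.1 (by linear_combination -h : (T.G.ρ.1 p : ℂ) * F.EQ ξ p = 0)).resolve_left h2

/-- the Euler-Lagrange expression vanishes where the core matches the end -/
theorem ELX_zero {z : Par T.ℓ} (hz : z ∈ Dom T.R T.k.K1 (13 / 8) (7 / 4) T.k.ε)
    (hr : RegJ T.R z.1 z.2.1 (T.U z)) (h2 : ∀ s θ, 2 * vj T.R z.1 z.2.1 (T.U z) s θ 0 ∈ Complex.slitPlane)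
    {b : ℝ} (hb : b ≤ 1) (mt : ∀ q : ℝ × ℝ, T.R < q.1 → q.1 < T.R + b →
      T.rW j (F.w ξ) q = (2 * T.vU z q) ^ (1 / 2 : ℂ)) (h1 : T.R < q.1) (h3 : q.1 ≤ T.R + b) :
    (T.G.SC.ELX (F.Y ξ)).1 (T.ψ j q) = 0 := by
  have h0 := T.hR
  have k : ∀ y : ℝ × ℝ, y.1 ∈ Ioo T.R (T.R + b) → (T.G.SC.ELX (F.Y ξ)).1 (T.ψ j y) = 0 := fun y hy =>
    (zone j le_rfl (by linarith) (by linarith)).el_zero (T.hU.sol z hz) hr h2
      (on_fR (T.e.Q j) fun i => ξ.2.2 (j, i)) (fun u hu => by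
        rw [pb_Y (by linarith [hu.1]), pC, pC, mt u hu.1 hu.2, one_div]; rfl) hy
  have c : ContinuousAt (fun y => (T.G.SC.ELX (F.Y ξ)).1 (T.ψ j y)) q :=
    ((pl (by linarith)).pm.cd (T.G.SC.ELX (F.Y ξ)).2).continuousAt
  have m : q ∈ closure (Ioo T.R (T.R + b) ×ˢ (univ : Set ℝ)) := by
    rw [closure_prod_eq, closure_Ioo (by linarith), closure_univ]
    exact ⟨⟨h1.le, h3⟩, trivial⟩
  exact (c.continuousWithinAt.eq_const_of_mem_closure m fun y hy => k y hy.1)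

/-- the core equation -/
theorem EQ_zero (hv : (σ.val (F.NL ξ)).1 = F.nl ξ) (hs : F.Sv N X y a ξ)
    (hr : ∀ z ∈ Dom T.R T.k.K1 (13 / 8) (7 / 4) T.k.ε, RegJ T.R z.1 z.2.1 (T.U z) ∧
      ∀ s θ, 2 * vj T.R z.1 z.2.1 (T.U z) s θ 0 ∈ Complex.slitPlane)
    (mt : ∀ j (q : ℝ × ℝ), T.R < q.1 → q.1 < T.R + 1 / 3 →
      T.rW j (F.w ξ) q = (2 * T.vU (F.zE N X a ξ j) q) ^ (1 / 2 : ℂ)) {p : S.sl 0}
    (hp : ∀ j, ((p : E), (0 : ℝ)) ∉ tube T.e j (T.R + 1 / 3)) : F.EQ ξ p = 0 := by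
  have h0 := T.hR
  by_cases h : ∀ j, ((p : E), (0 : ℝ)) ∉ tube T.e j (T.R + 1 / 10)
  · exact EQ_in hv hs h
  simp only [not_forall, not_not] at h
  obtain ⟨j, h⟩ := h
  have hM := Mu_zero (F := F) (tube_mono (by linarith) h) (F.w ξ) (T.TT ξ.2.2) (F.c ξ)
  obtain ⟨q, hq, -, e⟩ := Ec.exists_psi (stat T) (by linarith) p h
  have h1 : T.e.R < q.1 := by linarith
  have h3 : q.1 ≤ T.R + 1 / 3 := not_lt.1 fun k => hp j (e ▸ Ec.psi_tube h1 k)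
  have hE : (T.G.SC.ELX (F.Y ξ)).1 (T.ψ j q) = 0 :=
    ELX_zero (F := F) (ξ := ξ) (j := j) (q := q) (z := F.zE N X a ξ j) (b := 1 / 3) (hs.dom j)
      (hr _ (hs.dom j)).1 (hr _ (hs.dom j)).2 (by norm_num) (mt j) (by linarith) h3
  have e2 : T.ψ j q = p := (psi_eq h1).trans e
  rw [e2, Fa.Y] at hE
  have k : ∀ a b c d : ℂ, a = 0 → c = 0 → a / b - c / d = 0 := fun a b c d h1 h2 => by
    rw [h1, h2, zero_div, zero_div, sub_zero]
  rw [Fa.EQ]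
  unfold Nq.Dt.EQ
  exact k _ _ _ _ hE hM

theorem ζ_one {p : S.sl 0} (hp : ∀ j, ((p : E), (0 : ℝ)) ∉ tube T.e j (T.R + 1 / 3)) :
    T.G.ζ.1 p = 1 := by
  have h0 := T.hR
  rw [T.P.geo_ζ, T.ha', T.hb']
  exact zeta_of_not (by linarith) (by linarith) fun j h => hp j (tube_mono (by linarith) h)

end Crest.Agent.N250.Mq

end
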