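import Crest.Agent.N250.R0.Leaf
import Crest.Agent.N250.Mc.Eq

/-!
# Row 250 (helper30): `Mat` and `MatD` from the matching of the radii
-/

set_option autoImplicit false
open Set Filter Topology
open Crest.GeometryTopology.MCF

noncomputable section

namespace Crest.Agent.N250.Mq

open WS Wr B1 R0

variable {S : Mv} {T : St S} {F : Fa T} {σ : Scale T.G}

/-- the matching of the radii -/
def Mt (F : Fa T) (N : ℕ) (X : ℂ) (a : Fin T.p → ℂ) (ξ : F.Ξ σ) : Prop :=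
  ∀ j (q : ℝ × ℝ), T.R < q.1 → q.1 < T.R + 1 / 3 →
    T.rW j (F.w ξ) q = (2 * T.vU (F.zE N X a ξ j) q) ^ (1 / 2 : ℂ)

theorem mat_of_mt (hG : T.Good) {N : ℕ} {X : ℂ} {y : Fin F.n → ℂ} {a : Fin T.p → ℂ} {ξ : F.Ξ σ}
    (hv : (σ.val (F.NL ξ)).1 = F.nl ξ)
    (hN : ∀ p, T.G.ζ.1 p = 1 → F.D.Nd (F.w ξ) (T.TT ξ.2.2) (F.c ξ) p) (hs : F.Sv N X y a ξ)
    (mt : Mt F N X a ξ) : F.Mat N X a ξ :=
  ⟨mt, fun p hp => ⟨EQ_zero hv hs hG.reg mt hp, hN p (ζ_one hp)⟩⟩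

theorem matD_of_mt (hG : T.Good) (hN : F.NLD σ)
    (h : ∃ ρ X1 : ℝ, 0 < ρ ∧ ∀ N X y a (ξ : F.Ξ σ), X1 < X.re → ‖ξ‖ < ρ → ‖F.dat ξ‖ < ρ →
      F.Sv N X y a ξ → Mt F N X a ξ) : F.MatD σ := by
  obtain ⟨ρ, X1, hρ, h⟩ := h
  obtain ⟨r, hr, hv⟩ := Metric.eventually_nhds_iff.1 hN.val
  refine ⟨min ρ r, X1, lt_min hρ hr, fun N X y a ξ hX h1 h2 hs => ?_⟩
  have k := hv (y := ξ) (by rw [dist_zero_right]; exact h1.trans_le (min_le_right _ _))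
  exact mat_of_mt hG k.1 k.2 hs
    (h N X y a ξ hX (h1.trans_le (min_le_left _ _)) (h2.trans_le (min_le_left _ _)) hs)

end Crest.Agent.N250.Mq

end
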