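import Crest.Agent.N250.R0.Leaf
import Crest.Agent.N250.Se.Dic
import Crest.Agent.N250.Mc.Defs
import Crest.Agent.N250.Wt.Grn2
import Crest.Agent.N250.Sg.Cut

/-!
# Row 250 (helper66): matching, the equation in the chart of an end
-/

set_option autoImplicit false
open Set Filter Topology
open Crest.GeometryTopology.MCF

noncomputable section

namespace Crest.Agent.N250.Mc

open Po Mt Lp

variable {f g : ℝ × ℝ → ℂ} {q : ℝ × ℝ}

theorem j_congr (h : f =ᶠ[𝓝 q] g) : j1 f q = j1 g q ∧ j2 f q = j2 g q := by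
  have e := jet_congr h
  exact ⟨Prod.ext (congrFun e 0) (Prod.ext (congrFun e 1) (congrFun e 2)),
    Prod.ext (congrFun e 3) (Prod.ext (congrFun e 4) (congrFun e 5))⟩

theorem nr_congr {c : ℂ} {ε C : ℝ} (n : Nr c ε C f q) (h : g =ᶠ[𝓝 q] f) : Nr c ε C g q := by
  have e := jet_congr h
  exact ⟨(congrArg (‖· - c‖) (congrFun e 0)).trans_le n.1,
    (congrArg norm (congrFun e 1)).trans_le n.2.1, (congrArg norm (congrFun e 2)).trans_le n.2.2.1,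
    (congrArg norm (congrFun e 3)).trans_le n.2.2.2.1,
    (congrArg norm (congrFun e 4)).trans_le n.2.2.2.2.1,
    (congrArg norm (congrFun e 5)).trans_le n.2.2.2.2.2⟩

theorem Qr_congr (h : f =ᶠ[𝓝 q] g) : Qr f q = Qr g q := by
  have e := jet_congr h
  rw [Qr, Qr, h.self_of_nhds, show d1 f q = d1 g q from congrFun e 1,
    show d2 f q = d2 g q from congrFun e 2]

/-- the square root of `r²` -/
theorem sqrt_sq {r : ℂ} {ε : ℝ} (h : ‖r - (√2 : ℝ)‖ ≤ ε) (hε : ε ≤ 1 / 10) :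
    (2 * (r ^ 2 / 2)) ^ (1 / 2 : ℂ) = r := by
  have h1 := abs_le.1 ((Complex.abs_re_le_norm _).trans h)
  rw [Complex.sub_re, Complex.ofReal_re] at h1
  have h2 : 0 < r.re := by linarith [sq2.1, h1.1]
  rw [show 2 * (r ^ 2 / 2) = r ^ 2 by ring, one_div]
  exact Complex.sq_cpow_two_inv h2

end Crest.Agent.N250.Mc

namespace Crest.Agent.N250.R0

open WS Wr B1 Gc Po Mt Lp Mc

variable {S : Mv}

namespace St

variable (T : St S) {j : Fin T.p} {q : ℝ × ℝ}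

theorem injOn_ψ' (j : Fin T.p) : InjOn (T.ψ j) (Ioi T.R ×ˢ Ico 0 (2 * Real.pi)) := by
  have pi := Real.pi_pos
  have k : ∀ x ∈ Ioi T.R ×ˢ Ico 0 (2 * Real.pi), ∃ c : ℝ, (c = 0 ∨ c = 2 * Real.pi) ∧
      (x.1, x.2 - c) ∈ strip (Ioi T.R) ∧ T.ψ j (x.1, x.2 - c) = T.ψ j x := fun x hx => by
    rcases le_or_gt x.2 Real.pi with h | h
    · exact ⟨0, .inl rfl, ⟨hx.1, by linarith [hx.2.1], by linarith⟩, by rw [sub_zero]⟩
    · refine ⟨_, .inr rfl, ⟨hx.1, by linarith, by linarith [hx.2.2]⟩, ?_⟩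
      rw [← T.ψ_per (T.eR_lt_R.trans hx.1), sub_add_cancel]
  intro x hx y hy h
  obtain ⟨a, ha, a1, a2⟩ := k x hx
  obtain ⟨b, hb, b1, b2⟩ := k y hy
  have e := T.injOn_ψ (I := Ioi T.R) (fun _ h => T.eR_lt_R.trans h) a1 b1 (by rw [a2, b2, h])
  have e1 : x.1 = y.1 := congrArg (·.1) e
  have e2 : x.2 - a = y.2 - b := congrArg (·.2) e
  refine Prod.ext e1 ?_
  rcases ha with rfl | rfl <;> rcases hb with rfl | rfl <;>
    linarith [hx.2.1, hx.2.2, hy.2.1, hy.2.2]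

theorem rW_ev (w : T.G.SmC) (hq : T.e.R < q.1) :
    rG T.G (T.ψ j) (T.e.Q j) (T.e.r j) w =ᶠ[𝓝 q] T.rW j w :=
  (T.nu_ev (j := j) hq).mono fun y hy => by rw [rG, rW, hy]; rfl

theorem χ'_ψ (hq : T.e.R < q.1) : ((T.χ'.1 (T.ψ j q) : ℝ) : ℂ) = T.k1 q := by
  rw [T.ze_ψ (by norm_num) (by norm_num) hq]; rfl

theorem per_k1 : Per T.k1 := fun _ _ => rfl

theorem k1_zero (hq : T.R + 1 / 5 ≤ q.1) : T.k1 q = 0 := by
  rw [k1, st_one (by linarith) hq]; simp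

theorem k1_one (hq : q.1 ≤ T.R + 1 / 10) : T.k1 q = 1 := by
  rw [k1, st_zero (by linarith) hq]; simp

theorem k1_norm (q : ℝ × ℝ) : ‖1 - T.k1 q‖ + ‖T.k1 q‖ ≤ 1 := by
  have h0 := st_nonneg (T.R + 1 / 10) (T.R + 1 / 5) q.1
  have h1 := st_le_one (T.R + 1 / 10) (T.R + 1 / 5) q.1
  rw [k1, ← Complex.ofReal_one, ← Complex.ofReal_sub, Complex.norm_real, Complex.norm_real,
    Real.norm_of_nonneg (by linarith), Real.norm_of_nonneg (by linarith)]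
  linarith

theorem r1_lo (z : Par T.ℓ) (hq : q.1 ≤ T.R + 1 / 3) :
    T.r1 j z q = (2 * T.vU z q) ^ (1 / 2 : ℂ) := by
  rw [r1, st_zero (by linarith) hq]; simp

theorem r1_hi (z : Par T.ℓ) (hq : T.R + 2 / 3 ≤ q.1) : T.r1 j z q = T.rS j q := by
  rw [r1, st_one (by linarith) hq]; simp

/-- the cut-off lift in the chart -/
theorem χ_uE_ψ {z : Par T.ℓ} (ok : EC.Ok T.IU (T.gE j (T.vU z))) (hq : T.R + 1 / 10 < q.1) :
    (T.G.oR T.χ * T.uE j (T.vU z)).1 (T.ψ j q) =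
      nom T.G (T.ψ j) (T.e.Q j) q * (T.r1 j z q - T.e.r j q) := by
  have hq' : T.e.R < q.1 := T.eR_lt' (by linarith)
  change ((T.χ.1 (T.ψ j q) : ℝ) : ℂ) * (T.uE j (T.vU z)).1 (T.ψ j q) = _ * (_ - T.rS j q)
  rw [T.uE_ψ ok hq', ← T.nu_nom hq', T.ze_ψ (by norm_num) (by norm_num) hq', r1, gE]
  rcases le_total q.1 (T.R + 2 / 3) with h | h
  · rw [T.κ_ψ_one hq.le h]; push_cast; ring
  · rw [st_one (by linarith) h]; simp

/-- the source of the end `j` in its chart -/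
theorem sE_ψ (v : ℝ × ℝ → ℂ) (hq : T.R ≤ q.1) : (T.sE j v).1 (T.ψ j q) =
    (1 - T.k1 q) * (T.G.SC.LL (T.G.oR T.χ * T.uE j v)).1 (T.ψ j q) := by
  have hq' : T.e.R < q.1 := T.eR_lt' (by linarith)
  change ((T.G.ρ.1 (T.ψ j q) : ℝ) : ℂ) * ((T.G.SC.LL (T.G.oR T.χ * T.uE j v)).1 (T.ψ j q) -
    ((T.χ'.1 (T.ψ j q) : ℝ) : ℂ) * (T.G.SC.LL (T.uE j v)).1 (T.ψ j q)) = _
  rw [T.ρ_ψ (by linarith), T.χ'_ψ hq', Complex.ofReal_one, one_mul]
  rcases le_or_gt (T.R + 1 / 5) q.1 with h | h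
  · rw [T.k1_zero h]; ring
  · have c : ContinuousAt (T.ze (1 / 5) (1 / 3)).1 (T.ψ j q) :=
      (N222.Imm.Sm.continuous (T.ze (1 / 5) (1 / 3)).2).continuousAt
    have e : (T.G.oR T.χ * T.uE j v).1 =ᶠ[𝓝 (T.ψ j q)] (T.uE j v).1 := by
      filter_upwards [c.eventually_ne (y := 0) (by
        rw [T.ze_ψ_one (by norm_num) (by norm_num) hq' h.le]; exact one_ne_zero)] with p hp
      change ((T.χ.1 p : ℝ) : ℂ) * _ = _
      rw [T.ze_one_of_ne (by norm_num) (by norm_num) le_rfl (by norm_num) hp]; simp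
    rw [LL_congr e]; ring

/-- the sources of the other ends -/
theorem sE_ψ_ne {i : Fin T.p} (hi : i ≠ j) (v : ℝ × ℝ → ℂ) (hq : T.e.R < q.1) :
    (T.sE i v).1 (T.ψ j q) = 0 := by
  have k : ∀ u : T.G.SmC, EC.Sp (T.Kκ i) u → (T.G.SC.LL u).1 (T.ψ j q) = 0 := fun u hu => by
    rw [LL_congr (g := 0) (hu.ev (T.zn_κ i).cl (T.ψ_notMem_Kκ hi hq)), Mov.LL_zero T.G.hypC.toIsDS]; rfl
  change ((T.G.ρ.1 (T.ψ j q) : ℝ) : ℂ) * ((T.G.SC.LL (T.G.oR T.χ * T.uE i v)).1 (T.ψ j q) -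
    ((T.χ'.1 (T.ψ j q) : ℝ) : ℂ) * (T.G.SC.LL (T.uE i v)).1 (T.ψ j q)) = _
  rw [k _ ((T.sp_uE i v).mul_left _), k _ (T.sp_uE i v)]; simp

end St

theorem bd_k1 : ∃ C : ℝ, 1 ≤ C ∧ ∀ (S : Mv) (T : St S) (q : ℝ × ℝ), Bd C T.k1 q := by
  obtain ⟨C, hC⟩ := Sg.exists_st
  have C0 : 0 ≤ C := (sq_nonneg _).trans (hC 0)
  refine ⟨10 * (C + 1), by linarith, fun S T q => ?_⟩
  have h1 : HasFDerivAt (fun y : ℝ × ℝ => (y.1 - (T.R + 1 / 10)) / (T.R + 1 / 5 - (T.R + 1 / 10)))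
      ((10 : ℝ) • ContinuousLinearMap.fst ℝ ℝ ℝ) q := by
    refine (((hasFDerivAt_fst.sub_const (T.R + 1 / 10)).const_mul 10).congr_of_eventuallyEq
      (.of_forall fun y => ?_))
    simp only
    ring
  have h2 := Complex.ofRealCLM.hasFDerivAt.comp q ((((Real.smoothTransition.contDiff
    (n := 1)).differentiable one_ne_zero _).hasDerivAt.comp_hasFDerivAt q h1).const_sub 1)
  have e : ∀ v, ‖fderiv ℝ T.k1 q v‖ ≤ 10 * (C + 1) * |v.1| := fun v => by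
    rw [show fderiv ℝ T.k1 q = _ from h2.fderiv]
    generalize (q.1 - (T.R + 1 / 10)) / (T.R + 1 / 5 - (T.R + 1 / 10)) = s
    change ‖((-(deriv Real.smoothTransition s * (10 * v.1)) : ℝ) : ℂ)‖ ≤ _
    rw [Complex.norm_real, Real.norm_eq_abs, abs_neg, abs_mul, abs_mul, abs_of_pos (by norm_num : (0 : ℝ) < 10)]
    have : |deriv Real.smoothTransition s| ≤ C + 1 := by
      nlinarith [hC s, sq_abs (deriv Real.smoothTransition s), abs_nonneg (deriv Real.smoothTransition s)]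
    nlinarith [abs_nonneg v.1]
  refine ⟨?_, ?_, (e _).trans (by simp), (e _).trans (by simp; linarith)⟩
  · exact cd_ofReal ((contDiff_const.sub ((contDiff_st _ _).comp contDiff_fst)).of_le
      (by simp)).contDiffAt
  · linarith [T.k1_norm q, norm_nonneg (1 - T.k1 q)]

namespace Fa

variable {T : St S} (F : Fa T) {σ : Scale T.G} {j : Fin T.p} {q : ℝ × ℝ}

theorem ph_ev (c : F.I → ℂ) (hq : T.R - 2 < q.1) : (F.D.ph c).1 =ᶠ[𝓝 (T.ψ j q)] fun _ => 0 := by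
  filter_upwards [eventually_all.2 fun k =>
    notMem_tsupport_iff_eventuallyEq.1 (F.ψ_notMem (j := j) k hq)] with p hp
  simp [ph_apply, hp]

theorem Mu_ψ' (u : T.G.SmC) (M : Nq.Mt (Fin T.p)) (c : F.I → ℂ) (hq : T.R - 2 < q.1) :
    (F.D.Mu u M c).1 (T.ψ j q) = 0 := by
  have e : (u * F.D.ph c).1 =ᶠ[𝓝 (T.ψ j q)] (0 : T.G.SmC).1 :=
    (F.ph_ev c hq).mono fun p hp => mul_eq_zero_of_right _ hp
  have k : ∀ a, Cj.ev T.G (T.ψ j q) (T.G.SC.D a (u * F.D.ph c)) = 0 := fun a =>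
    (D_ev e a).self_of_nhds.trans (by rw [T.G.hypC.D_zero]; rfl)
  rw [← Cj.ev_apply, Nq.Dt.Mu]
  simp only [map_sub, map_mul, map_sum, k, mul_zero, Finset.sum_const_zero, sub_zero]
  exact mul_eq_zero_of_right _ (F.ph_ψ c hq)

theorem EQ_ψ (ξ : F.Ξ σ) {ε C : ℝ} (hq : T.R ≤ q.1) (n : Nr (√2 : ℝ) ε C (T.rW j (F.w ξ)) q)
    (hε : ε ≤ 1 / 10) : F.EQ ξ (T.ψ j q) =
      EP T.G (T.ψ j) (T.e.Q j) (rG T.G (T.ψ j) (T.e.Q j) (T.e.r j) (F.w ξ)) q := by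
  have hq' : T.e.R < q.1 := T.eR_lt' (by linarith)
  have g := n.Qr_ge hε
  have ne : Qr (T.rW j (F.w ξ)) q * T.rW j (F.w ξ) q ≠ 0 := norm_pos_iff.1 (by linarith)
  have e := T.rW_ev (j := j) (F.w ξ) hq'
  have k := EQ_pol (F.pc_Y ξ (by linarith) (right_ne_zero_of_mul ne)) (T.pl hq').sg_ne
    (left_ne_zero_of_mul ne) (T.nu_ne (j := j) hq')
  have v : Cj.val (F.D.VV (T.TT ξ.2.2)) (T.ψ j q) = _ := funext (F.VV_ψ ξ.2.2 (by linarith))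
  rw [EP, (j_congr e).1, (j_congr e).2, Qr_congr e, e.self_of_nhds, ← T.nu_nom hq', ← k, EQ,
    Nq.Dt.EQ, F.Mu_ψ' _ _ _ (by linarith), zero_div, sub_zero, Nq.Dt.NZ, Cj.dot_val, v, Y]

/-- the first component of the system in the chart -/
theorem eqn {N : ℕ} {X : ℂ} {y : Fin F.n → ℂ} {a : Fin T.p → ℂ} {ξ : F.Ξ σ}
    (h : F.Sv N X y a ξ) (hn : (σ.val (F.NL ξ)).1 = F.nl ξ)
    (hv : ∀ i, σ.val (EC.toA σ (T.sE i (T.vU (F.zE N X a ξ i)))) = T.sE i (T.vU (F.zE N X a ξ i)))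
    (hq : T.R ≤ q.1) : (1 - T.k1 q) * (T.G.SC.LL (F.w ξ -
      T.G.oR T.χ * T.uE j (T.vU (F.zE N X a ξ j)))).1 (T.ψ j q) = T.k1 q * F.EQ ξ (T.ψ j q) := by
  have hq' : T.e.R < q.1 := T.eR_lt' (by linarith)
  have e0 : ξ.1 - F.NL ξ - ∑ i, EC.toA σ (T.sE i (T.vU (F.zE N X a ξ i))) = 0 := congrArg (·.1) h.eq
  have e1 := congrArg (fun u => Cj.ev T.G (T.ψ j q) (σ.val u)) e0
  simp only [map_sub, map_sum, map_zero, hv, Cj.ev_apply, hn] at e1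
  rw [Finset.sum_eq_single j (fun i _ hi => T.sE_ψ_ne hi _ hq') (by simp), T.sE_ψ _ hq, nl,
    T.ρ_ψ (by linarith), T.χ'_ψ hq'] at e1
  have e2 := congrArg (Cj.ev T.G (T.ψ j q)) (F.ρ_LL_w ξ)
  have k : ∀ k, Cj.ev T.G (T.ψ j q) (F.c ξ k • T.G.oR (T.G.ρ * F.φ k)) = 0 := fun k => by
    change F.c ξ k * ((T.G.ρ.1 (T.ψ j q) * (F.φ k).1 (T.ψ j q) : ℝ) : ℂ) = 0
    rw [F.φ_ψ k (by linarith)]; simp
  rw [map_sub, map_sum, map_mul, Finset.sum_eq_zero fun i _ => k i] at e2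
  change ((T.G.ρ.1 (T.ψ j q) : ℝ) : ℂ) * (T.G.SC.LL (F.w ξ)).1 (T.ψ j q) =
    (σ.val ξ.1).1 (T.ψ j q) - 0 at e2
  rw [T.ρ_ψ (by linarith)] at e2
  rw [Mov.LL_sub T.G.hypC.toIsDS]
  change _ * ((T.G.SC.LL (F.w ξ)).1 (T.ψ j q) - (T.G.SC.LL _).1 (T.ψ j q)) = _
  push_cast at e1 e2
  linear_combination e1 + (1 - T.k1 q) * e2

end Fa

end Crest.Agent.N250.R0

end
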