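import Crest.Agent.N250.R0.Leaf
import Crest.Agent.N250.Se.Dic
import Crest.Agent.N250.Em.Rd
import Crest.Agent.N250.Mc.Defs

/-!
# Row 250 (helper49): matching, the source term of the ends and the trace at `x = R`
-/

set_option autoImplicit false
open Set Filter Topology
open scoped ContDiff
open Crest.GeometryTopology.MCF

noncomputable section

namespace Crest.Agent.N250.R0

open WS Wr B1 Po

variable {S : Mv}

/-- continuous periodic functions are determined by their Fourier coefficients -/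
theorem eq_of_fc {f g : ℝ → ℂ} (hf : Continuous f) (hg : Continuous g)
    (pf : Function.Periodic f (2 * Real.pi)) (pg : Function.Periodic g (2 * Real.pi))
    (h : ∀ m, Ra.fc f m = Ra.fc g m) (θ : ℝ) : f θ = g θ := by
  have e : Ra.fc (fun θ => f θ - g θ) = fun _ => 0 := funext fun m => by
    rw [Ra.fc_sub hf hg, h, sub_self]
  have k := Ra.fc_hasSum (f := fun θ => f θ - g θ) (pf.sub pg) (hf.sub hg) (e ▸ summable_zero) θ
  simp only [e, zero_mul] at k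
  exact sub_eq_zero.1 (k.unique hasSum_zero)

namespace St

variable (T : St S) {i j : Fin T.p} {q : ℝ × ℝ} {z : Par T.ℓ}

/-- the source operator with a general coefficient -/
def sO (j : Fin T.p) (c : T.G.SmC) (g : ℝ × ℝ → ℂ) : T.G.SmC :=
  T.G.oR T.G.ρ * (T.G.SC.LL (T.G.oR T.χ * EC.lift T.G (T.e.Q j) c g) -
    T.G.oR T.χ' * T.G.SC.LL (EC.lift T.G (T.e.Q j) c g))

theorem op_sO {I : Set ℝ} {K : Set (S.sl 0)} (Z : EC.Zn T.G (T.e.Q j) I K) {c : T.G.SmC}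
    (hc : EC.Sp K c) : EC.Op T.G (T.e.Q j) I K 2 (T.sO j c) :=
  (((((EC.Op.lift (k := 0) hc).mul Z _).LL Z).sub Z (((EC.Op.lift (k := 0) hc).LL Z).mul Z _)).mul Z _)

theorem sp_sE (j : Fin T.p) (v : ℝ × ℝ → ℂ) : EC.Sp (T.Kκ j) (T.sE j v) := by
  have h := (T.op_sO (T.zn_κ j) (T.sp_uE j v)).sp (EC.Ok.const 1)
  rwa [sO, (T.zn_κ j).lift_const (T.sp_uE j v), one_smul] at h

theorem sE_ne (hi : i ≠ j) (hq : T.e.R < q.1) (v : ℝ × ℝ → ℂ) : (T.sE i v).1 (T.ψ j q) = 0 :=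
  T.sp_sE i v _ (T.ψ_notMem_Kκ hi hq)

theorem uE_ne (hi : i ≠ j) (hq : T.e.R < q.1) (v : ℝ × ℝ → ℂ) : (T.uE i v).1 (T.ψ j q) = 0 :=
  T.sp_uE i v _ (T.ψ_notMem_Kκ hi hq)

/-- outside `R + 1/20 ≤ x ≤ R + 9/10` the source vanishes -/
theorem sE_out (hq : T.e.R < q.1) (h : q.1 ∉ Icc (T.R + 1 / 20) (T.R + 9 / 10)) (v : ℝ × ℝ → ℂ) :
    (T.sE j v).1 (T.ψ j q) = 0 := T.sp_sE j v _ (mt (T.ψ_mem_Kκ hq).1 h)

/-- the strip `R + 1/40 < x < R + 1` -/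
abbrev IV : Set ℝ := Ioo (T.R + 1 / 40) (T.R + 1)

theorem IV_sub : T.IV ⊆ Ioi T.e.R := fun _ h => T.eR_lt' (by linarith [h.1])

theorem zn_V (j : Fin T.p) : EC.Zn T.G (T.e.Q j) T.IV (T.Kκ j) :=
  EC.zn_Kc (T.eR_lt (by norm_num)) isOpen_Ioo fun _ h => ⟨by linarith [h.1], by linarith [h.2]⟩

theorem rf_rS (j : Fin T.p) {a b : ℝ} (ha : T.e.R < a) : Em.Rf (T.rS j) a b :=
  Em.rf_of (T.ok_rS subset_rfl) isOpen_Ioi fun _ h => ha.trans_le h.1

theorem gE_prof (j : Fin T.p) (z : Par T.ℓ) :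
    T.gE j (T.vU z) = fun y => T.nu j y * Em.prof T.U T.R (T.rS j) z y :=
  funext fun _ => mul_comm _ _

variable {T}

theorem Good.ok_prof (h : T.Good) (j : Fin T.p) (hz : z ∈ T.Dm) :
    EC.Ok T.IU (Em.prof T.U T.R (T.rS j) z) := by
  obtain ⟨c, CD, C, F⟩ := h.fm
  have k := fun a (ha : T.R < a) => F.ok_prof ha le_rfl (T.rf_rS j (T.eR_lt_R.trans ha)) hz
  refine ⟨fun y hy => ?_, (k (T.R + 1) (by linarith)).per⟩
  obtain ⟨a, h1, h2⟩ := exists_between (show T.R < y.1 from hy.1.1)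
  exact ((k a h1).cdAt isOpen_Ioo ⟨h2, hy.1.2⟩).contDiffWithinAt

theorem Good.ok_gE (h : T.Good) (j : Fin T.p) (hz : z ∈ T.Dm) : EC.Ok T.IU (T.gE j (T.vU z)) :=
  T.gE_prof j z ▸ (T.ok_nu T.IU_sub).mul (h.ok_prof j hz)

theorem Good.sE_eq (h : T.Good) (j : Fin T.p) (hz : z ∈ T.Dm) : T.sE j (T.vU z) =
    T.sO j (EC.lift T.G (T.e.Q j) (T.G.oR (T.κ j)) (T.nu j)) (Em.prof T.U T.R (T.rS j) z) := by
  rw [sO, (T.zn_κ j).lift_lift (T.sp_κ j) (T.ok_nu T.IU_sub) (h.ok_prof j hz), ← gE_prof]; rfl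

/-- the reading of the ends by the source, in the Floer norm -/
theorem Good.ra (h : T.Good) : Sg fun σ : Scale T.G => ∀ j, ∃ M A, Em.RA T.U T.R T.k.K1 T.k.ε
    (T.R + 1 / 40) (T.R + 1) (T.rS j)
    (T.sO j (EC.lift T.G (T.e.Q j) (T.G.oR (T.κ j)) (T.nu j))) σ M A := by
  obtain ⟨c, CD, C, F⟩ := h.fm
  exact (eventually_all.2 fun j => F.ra (by linarith) (by linarith) le_rfl
    (T.rf_rS j (T.eR_lt (by norm_num))) (T.zn_V j) (T.op_sO (T.zn_V j) ((T.sp_κ j).lift (T.nu j)))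
    (T.compact_Kκ j)).mono fun _ k σ e j => k j σ e

/-- the sources have finite Floer norm -/
theorem Good.src (h : T.Good) : Sg fun σ : Scale T.G => ∀ j, ∀ z ∈ T.Dm,
    σ.val (EC.toA σ (T.sE j (T.vU z))) = T.sE j (T.vU z) :=
  h.ra.mono fun _ k j z hz => by
    obtain ⟨M, A, k⟩ := k j
    rw [h.sE_eq j hz]; exact k.val z hz

theorem Good.uE_ψ' (h : T.Good) (hz : z ∈ T.Dm) (h1 : T.R + 1 / 10 ≤ q.1) (h2 : q.1 ≤ T.R + 2 / 3) :
    (T.uE j (T.vU z)).1 (T.ψ j q) = T.nu j q * ((2 * T.vU z q) ^ (1 / 2 : ℂ) - T.rS j q) := by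
  rw [T.uE_ψ (h.ok_gE j hz) (T.eR_lt' (by linarith)), T.κ_ψ_one h1 h2, gE]
  push_cast; ring

/-- the cut-off end is the graph of `χ uE` -/
theorem Good.uE_psi (h : T.Good) (hz : z ∈ T.Dm) (hq : T.R + 1 / 10 ≤ q.1) :
    (T.G.oR T.χ * T.uE j (T.vU z)).1 (T.ψ j q) = T.nu j q * (T.r1 j z q - T.rS j q) := by
  change ((T.χ.1 (T.ψ j q) : ℝ) : ℂ) * (T.uE j (T.vU z)).1 (T.ψ j q) = _
  rw [T.ze_ψ (by norm_num) (by norm_num) (T.eR_lt' (by linarith)), r1, add_sub_cancel_left]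
  rcases le_total q.1 (T.R + 2 / 3) with h2 | h2
  · rw [h.uE_ψ' hz hq h2]; ring
  · rw [st_one (by linarith) h2]; simp

end St

namespace Fa

variable {T : St S} {F : Fa T} {σ : Scale T.G} {N : ℕ} {X : ℂ} {y : Fin F.n → ℂ} {a : Fin T.p → ℂ}
  {ξ : F.Ξ σ}

/-- first component of the system -/
theorem Sv.fst (h : F.Sv N X y a ξ) :
    ξ.1 - F.NL ξ - ∑ j, EC.toA σ (T.sE j (T.vU (F.zE N X a ξ j))) = 0 := congrArg (·.1) h.eq

/-- third component of the system -/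
theorem Sv.thd (h : F.Sv N X y a ξ) (j : Fin T.p) (i : Fin 3) :
    Wi.co (F.dat ξ j) ((i : ℤ) - 1) = T.mE j (T.vU (F.zE N X a ξ j)) i :=
  sub_eq_zero.1 (congrFun (congrArg (·.2.2) h.eq) (j, i))

/-- the core and the ends have the same trace at `x = R` -/
theorem Sv.trace (h : F.Sv N X y a ξ) (j : Fin T.p) (θ : ℝ) :
    T.vW j (F.w ξ) (T.R, θ) = T.vU (F.zE N X a ξ j) (T.R, θ) := by
  have hx : T.R ∈ Icc T.R (T.R + 1) := ⟨le_rfl, by linarith⟩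
  have p1 := T.pd_vW (j := j) (F.w ξ) T.eR_lt_R
  have p2 := T.pd_vS (j := j) T.eR_lt_R
  have c3 : Continuous fun θ => T.vU (F.zE N X a ξ j) (T.R, θ) := Em.cont_vS _ _ hx
  refine eq_of_fc p1.cd.continuous c3 p1.per (fun θ => vS_per _ _ _ θ) (fun m => ?_) θ
  have e1 := F.co_dat ξ j m
  rw [Ra.fc_sub p1.cd.continuous p2.cd.continuous] at e1
  rcases le_or_gt 2 |m| with hm | hm
  · have m0 : m ≠ 0 := by rintro rfl; simp at hm
    have e2 := (T.hU.sol _ (h.dom j)).bc.inner m hm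
    have e3 : tS T.R T.R = i0 := Subtype.ext (by rw [tS_coe hx]; simp [i0])
    have e4 := (p2.sub (Ec.Pd.const 1)).co_four 2 m
    have e5 := (Ec.Pd.const 1).co_four 2 m
    rw [Ec.Pd.four_const, Wi.co_cst, if_neg m0] at e5
    rw [Ra.fc_sub p2.cd.continuous continuous_const, ← e5] at e4
    change Ra.fc _ m = Ra.fc (fun θ => vS T.R _ (T.U _) (T.R, θ)) m
    rw [Em.fc_vS' _ _ hx, if_neg m0, e3, e2]
    change _ = Wi.co (T.b0 j + F.dat ξ j) m + 0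
    rw [Wi.co_add, e1, St.b0, e4]; ring
  · obtain ⟨i, rfl⟩ : ∃ i : Fin 3, m = (i : ℤ) - 1 := by
      obtain ⟨h1, h2⟩ := abs_lt.1 hm
      exact ⟨⟨(m + 1).toNat, by omega⟩, by simp only; omega⟩
    have e2 := h.thd j i
    rw [St.mE, Ra.fc_sub c3 p2.cd.continuous, e1] at e2
    exact sub_left_injective e2

end Fa

end Crest.Agent.N250.R0

end
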