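import Crest.Agent.N250.Mc.Eqn
import Crest.Agent.N250.Mc.Src

/-!
# Row 250 (helper66): matching of the radii
-/

set_option autoImplicit false
open Set Filter Topology
open Crest.GeometryTopology.MCF

noncomputable section

namespace Crest.Agent.N250.R0

open WS Wr B1 Gc Po Mt Lp Mc

/-- the ends are close to the cylinder and solve the equation -/
def EndNr : Prop := ∀ ε : ℝ, 0 < ε → ∀ (S : Mv) (e : Ends S), Ev e fun T => T.Good →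
  ∃ X1 : ℝ, ∀ j, ∀ z ∈ T.Dm, X1 < z.1.re → Cn 2 T.R (T.r1 j z) ∧
    ∀ q : ℝ × ℝ, T.R < q.1 → q.1 ≤ T.R + 1 / 5 → Nr (√2 : ℝ) ε 1 (T.r1 j z) q ∧
      PRj q.1 (j1 (T.r1 j z) q) (j2 (T.r1 j z) q) = 0

/-- the shrinker is close to the cylinder -/
def RsNr : Prop := ∀ ε : ℝ, 0 < ε → ∀ (S : Mv) (e : Ends S), Ev e fun T =>
  ∀ j (q : ℝ × ℝ), T.R ≤ q.1 → Nr (√2 : ℝ) ε 1 (T.rS j) q

/-- the core is close to the cylinder -/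
def RwNr : Prop := ∀ ε : ℝ, 0 < ε → ∀ (S : Mv) (e : Ends S), Ev e fun T =>
  ∀ F : Fa T, Sg fun σ => ∃ ρ : ℝ, 0 < ρ ∧ ∀ ξ : F.Ξ σ, ‖ξ‖ < ρ → ∀ j (q : ℝ × ℝ), T.R ≤ q.1 →
    q.1 ≤ T.R + 1 / 5 → Nr (√2 : ℝ) ε 1 (T.rW j (F.w ξ)) q

theorem mt_of (h1 : EndNr) (h2 : RsNr) (h3 : RwNr) (S : Mv) (e : Ends S) :
    Ev e fun T => T.Good → ∀ F : Fa T, Sg fun σ => F.NLD σ → ∃ ρ X1 : ℝ, 0 < ρ ∧
      ∀ N X y a (ξ : F.Ξ σ), X1 < X.re → ‖ξ‖ < ρ → ‖F.dat ξ‖ < ρ → F.Sv N X y a ξ →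
        ∀ j (q : ℝ × ℝ), T.R < q.1 → q.1 < T.R + 1 / 3 →
          T.rW j (F.w ξ) q = (2 * T.vU (F.zE N X a ξ j) q) ^ (1 / 2 : ℂ) := by
  obtain ⟨ε, e0, e1, H⟩ := Mc.geo
  obtain ⟨C, C1, bd⟩ := bd_k1
  obtain ⟨R₁, H⟩ := H C
  refine ((((h1 ε e0 S e).and (h2 ε e0 S e)).and (h3 ε e0 S e)).and (Ev.of_R R₁)).mono ?_
  rintro T - ⟨⟨⟨h1, h2⟩, h3⟩, hR⟩ hG F
  obtain ⟨X1, h1⟩ := h1 hG
  refine ((h3 F).and hG.src).mono ?_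
  rintro σ ⟨⟨ρ, ρ0, h3⟩, hv⟩ hN
  obtain ⟨r, r0, hn⟩ := Metric.eventually_nhds_iff.1 hN.val
  refine ⟨min ρ r, X1, lt_min ρ0 r0, fun N X y a ξ hX n1 _ hs j q q1 q2 => ?_⟩
  replace hn := (hn (y := ξ) (by rw [dist_zero_right]; exact n1.trans_le (min_le_right _ _))).1
  replace h3 := h3 ξ (n1.trans_le (min_le_left _ _)) j
  obtain ⟨c1, h1⟩ := h1 j _ (hs.dom j) hX
  have lt : ∀ {q : ℝ × ℝ}, T.R ≤ q.1 → T.e.R < q.1 := fun h => T.eR_lt_R.trans_le h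
  rw [← T.r1_lo _ q2.le, ← (T.rW_ev (F.w ξ) (lt q1.le)).self_of_nhds]
  refine H T.R hR T.G (T.ψ j) (T.e.Q j) (T.e.r j) (F.w ξ) (T.r1 j (F.zE N X a ξ j)) T.k1
    (T.R + 1 / 5) (T.R + 2 / 3) (fun q hq => ⟨T.pl (lt hq), (h2 j q hq).mono le_rfl C1, bd S T q,
      T.k1_norm q⟩) (fun x θ hx => T.ψ_per (T.eR_lt_R.trans hx) θ) (T.e.per j) T.per_k1
    (T.injOn_ψ' j) (σ.gC_wG_ne F.grn _) ((F.isG ξ).gC_LL_ne F.grn (σ.gC_ne _))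
    (fun q => T.k1_zero) (fun q a1 a2 => nr_congr ((h3 q a1 a2).mono le_rfl C1) (T.rW_ev _ (lt a1)))
    c1 (fun q a1 a2 => ⟨(h1 q a1 a2).1.mono le_rfl C1, (h1 q a1 a2).2⟩)
    (fun q hq => T.r1_hi _ hq.le) (fun θ => ?_) (fun q hq => ⟨_, ?_,
      (F.eqn hs hn (fun i => hv i _ (hs.dom i)) hq.le).trans ?_⟩) q q1.le
  · rw [(T.rW_ev (F.w ξ) (q := (T.R, θ)) T.eR_lt_R).self_of_nhds, T.r1_lo _ (by simp),
      ← hs.trace j θ]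
    exact (sqrt_sq (h3 (T.R, θ) le_rfl (by simp)).1 e1).symm
  · refine (le_or_gt q.1 (T.R + 1 / 10)).imp T.k1_one fun h => ?_
    exact (St.half_nhds h).mono fun y hy => T.χ_uE_ψ (hG.ok_gE j (hs.dom j)) hy
  · rcases le_total q.1 (T.R + 1 / 5) with h | h
    · rw [F.EQ_ψ ξ hq.le (h3 q hq.le h) e1]
    · rw [T.k1_zero h, zero_mul, zero_mul]

end Crest.Agent.N250.R0

end
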