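import Crest.Agent.N250.R0.Leaf
import Crest.Agent.N250.Se.Dic
import Crest.Agent.N250.Mt.PR
import Crest.Agent.N250.Wt.All
import Crest.Agent.N250.Wt.Grn2

/-!
# Row 250 (helper86): matching, smallness of the core radius on the strip
-/

set_option autoImplicit false
open MeasureTheory Set Filter Topology
open scoped ContDiff
open Crest.GeometryTopology.MCF

noncomputable section

namespace Crest.Agent.N250.R0

open WS Wr B1 Po Mt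

theorem norm_fd_le_it {f : ℝ × ℝ → ℂ} (q w : ℝ × ℝ) (hw : ‖w‖ ≤ 1) :
    ‖fderiv ℝ f q w‖ ≤ ‖iteratedFDeriv ℝ 1 f q‖ := by
  rw [norm_iteratedFDeriv_one]
  exact (ContinuousLinearMap.le_opNorm _ _).trans
    (mul_le_of_le_one_right (norm_nonneg _) hw)

theorem norm_fd2_le_it {f : ℝ × ℝ → ℂ} {q : ℝ × ℝ} (hf : ContDiffAt ℝ 2 f q) (v w : ℝ × ℝ)
    (hv : ‖v‖ ≤ 1) (hw : ‖w‖ ≤ 1) :
    ‖fderiv ℝ (fun y => fderiv ℝ f y w) q v‖ ≤ ‖iteratedFDeriv ℝ 2 f q‖ := by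
  have h1 : DifferentiableAt ℝ (fderiv ℝ f) q :=
    (hf.fderiv_right (m := 1) (by norm_num)).differentiableAt one_ne_zero
  have h2 : fderiv ℝ (fun y => fderiv ℝ f y w) q v = iteratedFDeriv ℝ 2 f q ![v, w] := by
    rw [iteratedFDeriv_two_apply, fderiv_clm_apply h1 (differentiableAt_const _)]
    simp
  rw [h2]
  refine (ContinuousMultilinearMap.le_opNorm _ _).trans
    (mul_le_of_le_one_right (norm_nonneg _) ?_)
  rw [Fin.prod_univ_two]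
  exact mul_le_one₀ hv (norm_nonneg _) hw

/-- `Nr` from bounds of the iterated derivatives -/
theorem nr_of_it {f : ℝ × ℝ → ℂ} {q : ℝ × ℝ} {c : ℂ} {ε C : ℝ} (hf : ContDiffAt ℝ 2 f q)
    (h : ∀ i ≤ 2, ‖iteratedFDeriv ℝ i (fun y => f y - c) q‖ ≤ ε) (hC : ε ≤ C) : Nr c ε C f q := by
  have e1 : ‖((1, 0) : ℝ × ℝ)‖ ≤ 1 := by simp [Prod.norm_mk]
  have e2 : ‖((0, 1) : ℝ × ℝ)‖ ≤ 1 := by simp [Prod.norm_mk]
  have hg : ContDiffAt ℝ 2 (fun y => f y - c) q := hf.sub contDiffAt_const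
  have k : ∀ w, (fun y => fderiv ℝ f y w) = fun y => fderiv ℝ (fun y => f y - c) y w :=
    fun w => funext fun y => by rw [fderiv_sub_const]
  have h0 := h 0 (by norm_num)
  rw [norm_iteratedFDeriv_zero] at h0
  have h1 := h 1 (by norm_num)
  have h2 := (h 2 le_rfl).trans hC
  refine ⟨h0, ?_, ?_, ?_, ?_, ?_⟩
  · exact le_trans (by unfold d1; rw [congrFun (k _) q]; exact norm_fd_le_it q _ e1) h1
  · exact le_trans (by unfold d2; rw [congrFun (k _) q]; exact norm_fd_le_it q _ e2) h1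
  · exact le_trans (by unfold d1; rw [k]; exact norm_fd2_le_it hg _ _ e1 e1) h2
  · exact le_trans (by unfold d1 d2; rw [k]; exact norm_fd2_le_it hg _ _ e1 e2) h2
  · exact le_trans (by unfold d2; rw [k]; exact norm_fd2_le_it hg _ _ e2 e2) h2

variable {S : Mv}

/-- the ends of `S` converge to the cylinder with two derivatives -/
theorem rS_it (e : Ends S) {δ : ℝ} (hδ : 0 < δ) (k : ℕ) : ∃ R1 : ℝ, ∀ T : St S, T.e = e →
    ∀ j (q : ℝ × ℝ), R1 ≤ q.1 → ∀ i ≤ k,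
      ‖iteratedFDeriv ℝ i (fun y => T.rS j y - ((√2 : ℝ) : ℂ)) q‖ ≤ δ := by
  choose s hs using fun x : Fin e.p × Fin (k + 1) => e.lim x.1 x.2 δ hδ
  obtain ⟨M, hM⟩ := Finite.exists_le s
  refine ⟨max M e.R + 1, ?_⟩
  rintro T rfl j q hq i hi
  have h1 : T.e.R < q.1 := by linarith [le_max_right M T.e.R]
  have h2 := hs (j, ⟨i, by omega⟩) q (by linarith [le_max_left M T.e.R, hM (j, ⟨i, by omega⟩)])
  have h3 : ContDiffAt ℝ ∞ (fun y => T.e.r j y - √2) q := (Ec.cd_r h1).sub contDiffAt_const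
  have h4 := Complex.ofRealLI.norm_iteratedFDeriv_comp_left h3 (i := i) (by exact_mod_cast le_top)
  refine le_of_eq_of_le ?_ (h4 ▸ h2)
  congr 2
  funext y
  simp [St.rS]

namespace St

variable (T : St S)

/-- `1 / ⟨n, ω⟩` on the zone `R - 1 ≤ x ≤ R + 1/2` of the tube `j` -/
def nI (j : Fin T.p) : T.G.SmC :=
  EC.lift T.G (T.e.Q j) (T.G.oR (T.cu j (-2) (-1) * (1 - T.cu j (1 / 2) 1))) fun y => (T.nu j y)⁻¹

theorem zn_nI (j : Fin T.p) :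
    EC.Zn T.G (T.e.Q j) (Ioi T.e.R) (EC.Kc T.P j (T.R + -2) (T.R + 1)) :=
  EC.zn_Kc (T.eR_lt (by norm_num)) isOpen_Ioi fun _ h => (T.eR_lt (by norm_num)).trans_le h.1

theorem sp_nI0 (j : Fin T.p) : EC.Sp (EC.Kc T.P j (T.R + -2) (T.R + 1))
    (T.G.oR (T.cu j (-2) (-1) * (1 - T.cu j (1 / 2) 1))) :=
  EC.sp_bump (T.eR_lt (by norm_num)) (by linarith) (by linarith)

theorem cs_nI (j : Fin T.p) : HasCompactSupport (T.nI j).1 :=
  EC.compact_Kc.of_isClosed_subset (isClosed_tsupport _)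
    (((T.sp_nI0 j).lift _).tsupp EC.closed_Kc)

theorem nI_ψ (j : Fin T.p) {q : ℝ × ℝ} (h1 : T.R - 1 ≤ q.1) (h2 : q.1 ≤ T.R + 1 / 2) :
    (T.nI j).1 (T.ψ j q) = (T.nu j q)⁻¹ := by
  have h0 : T.e.R < q.1 := T.eR_lt' (by linarith)
  have hok : EC.Ok (Ioi T.e.R) fun y => (T.nu j y)⁻¹ := T.ok_nu_inv subset_rfl
  rw [nI, (T.zn_nI j).lift_apply (T.sp_nI0 j) hok, T.cr_ψ hok.per h0]
  have e : (T.G.oR (T.cu j (-2) (-1) * (1 - T.cu j (1 / 2) 1))).1 (T.ψ j q) =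
      (((T.cu j (-2) (-1)).1 (T.ψ j q) * (1 - (T.cu j (1 / 2) 1).1 (T.ψ j q)) : ℝ) : ℂ) := rfl
  rw [e, T.cu_ψ_one (by norm_num) (by norm_num) (by linarith),
    T.cu_ψ_zero (by norm_num) h0 h2]
  simp

end St

/-- all jets of `rW - rS` on the zone `R - 1/2 ≤ x ≤ R + 1/3` are `O(ξ)` -/
theorem Fa.rW_it {T : St S} (F : Fa T) (k : ℕ) : Sg fun σ : Scale T.G => ∃ C : ℝ, 0 < C ∧
    ∀ (ξ : F.Ξ σ) j (q : ℝ × ℝ), T.R - 1 / 2 ≤ q.1 → q.1 ≤ T.R + 1 / 3 → ∀ i ≤ k,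
      ‖iteratedFDeriv ℝ i (fun y => T.rW j (F.w ξ) y - T.rS j y) q‖ ≤ C * ‖ξ‖ := by
  have hJ : Icc (T.R - 1 / 2) (T.R + 1 / 3) ⊆ Ioi T.e.R := fun x hx =>
    T.eR_lt' (by linarith [hx.1])
  choose C1 h1 hC1 using fun j => Ec.jet_psi (e := T.e) (j := j) T.reg (F := ℂ) isCompact_Icc hJ k
  obtain ⟨C2, hC2⟩ := Finite.exists_le C1
  filter_upwards [F.grn.nonempty_jets T.G.mainS,
    eventually_all.2 fun j => T.G.NN_ne_top_of_cs (T.cs_nI j)] with ε hJ hn σ hσ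
  obtain ⟨J⟩ := hJ σ hσ
  subst hσ
  obtain ⟨C3, hC3⟩ := Finite.exists_le fun j => ‖σ.el (T.nI j) (hn j)‖
  set C4 : ℝ := (((σ.ε (k + 5))⁻¹ : NNReal) : ℝ) with hC4
  have p4 : 0 ≤ C4 := NNReal.coe_nonneg _
  refine ⟨|C2| * (C4 * (|C3| * ‖J.J0‖)) + 1, by positivity, fun ξ j q hq hq' i hi => ?_⟩
  set u : σ.AA := σ.el (T.nI j) (hn j) * J.J0 (ξ.1, ξ.2.1) with hu
  have n1 : ‖((ξ.1, ξ.2.1) : σ.AA × (F.I → ℂ))‖ ≤ ‖ξ‖ := by
    rw [Prod.norm_mk]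
    exact max_le (norm_fst_le ξ) ((norm_fst_le ξ.2).trans (norm_snd_le ξ))
  have n2 : ‖u‖ ≤ |C3| * ‖J.J0‖ * ‖ξ‖ := by
    refine (norm_mul_le _ _).trans ?_
    rw [mul_assoc]
    exact mul_le_mul ((hC3 j).trans (le_abs_self _))
      ((J.J0.le_opNorm _).trans (mul_le_mul_of_nonneg_left n1 (norm_nonneg _))) (norm_nonneg _)
      (abs_nonneg _)
  have n3 := hC1 j (σ.val u).1 (C4 * ‖u‖) (σ.val u).2 q ⟨hq, hq'⟩ (fun l hl => by
    change ‖Lim.DW T.G.M l (σ.val u).1 _‖ ≤ _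
    rw [← T.G.SC_Dw_DW]
    refine (Scale.norm_Dw_le l u _).trans (mul_le_mul_of_nonneg_right ?_ (norm_nonneg _))
    exact NNReal.coe_le_coe.2 (inv_anti₀ (σ.adm.pos _) (σ.adm.antitone (by omega)))) i hi
  have ev : (fun y => T.rW j (F.w ξ) y - T.rS j y) =ᶠ[𝓝 q] (σ.val u).1 ∘ Ec.psi T.e j := by
    have o : ∀ᶠ y : ℝ × ℝ in 𝓝 q, T.R - 1 < y.1 ∧ y.1 < T.R + 1 / 2 :=
      (St.half_nhds (by linarith)).and
        ((isOpen_lt continuous_fst continuous_const).mem_nhds (show q.1 < _ by linarith))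
    refine o.mono fun y hy => ?_
    have h0 : T.e.R < y.1 := T.eR_lt' (by linarith [hy.1])
    have e : (σ.val u).1 (T.ψ j y) = (T.nI j).1 (T.ψ j y) *
        (((T.G.ζ.1 (T.ψ j y) * T.G.ι.1 (T.ψ j y) : ℝ) : ℂ) * (F.w ξ).1 (T.ψ j y)) := by
      rw [hu, map_mul, J.val0]; rfl
    show _ = (σ.val u).1 (Ec.psi T.e j y)
    rw [← T.ψ_eq h0, e, T.nI_ψ j hy.1.le hy.2.le, T.ζ_ψ h0 (by linarith [hy.2]),
      T.ι_ψ (by linarith [hy.1])]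
    simp [St.rW, div_eq_inv_mul]
  rw [(ev.iteratedFDeriv ℝ i).self_of_nhds]
  refine n3.trans ?_
  have := norm_nonneg ξ
  calc C1 j * (C4 * ‖u‖) ≤ |C2| * (C4 * (|C3| * ‖J.J0‖ * ‖ξ‖)) := by
        gcongr; exact (hC2 j).trans (le_abs_self _)
    _ = |C2| * (C4 * (|C3| * ‖J.J0‖)) * ‖ξ‖ := by ring
    _ ≤ _ := by nlinarith

/-- (D) of the matching leaf -/
theorem w_nr {ε : ℝ} (hε : 0 < ε) (S : Mv) (e : Ends S) : Ev e fun T =>
    (∀ j (q : ℝ × ℝ), T.R ≤ q.1 → Nr ((√2 : ℝ) : ℂ) ε 1 (T.rS j) q) ∧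
    ∀ F : Fa T, Sg fun σ => ∃ ρ : ℝ, 0 < ρ ∧ ∀ ξ : F.Ξ σ, ‖ξ‖ < ρ → ∀ j (q : ℝ × ℝ), T.R ≤ q.1 →
      q.1 ≤ T.R + 1 / 5 → Nr ((√2 : ℝ) : ℂ) ε 1 (T.rW j (F.w ξ)) q := by
  have hδ : 0 < min ε 1 / 2 := by positivity
  have mono : ∀ {f : ℝ × ℝ → ℂ} {q : ℝ × ℝ}, Nr ((√2 : ℝ) : ℂ) (min ε 1) 1 f q →
      Nr ((√2 : ℝ) : ℂ) ε 1 f q := fun h =>
    ⟨h.1.trans (min_le_left _ _), h.2.1.trans (min_le_left _ _), h.2.2.1.trans (min_le_left _ _),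
      h.2.2.2⟩
  obtain ⟨R1, h1⟩ := rS_it e hδ 2
  refine (Ev.of_R R1).mono fun T hT hR => ⟨fun j q hq => ?_, fun F => ?_⟩
  · exact mono (nr_of_it ((T.cd_rS (T.eR_lt_R.trans_le hq)).of_le two_le_infty)
      (fun i hi => (h1 T hT j q (hR.trans hq) i hi).trans (by linarith)) (min_le_right _ _))
  · refine (F.rW_it 2).mono fun σ ⟨C, hC, h2⟩ => ⟨min ε 1 / 2 / C, by positivity,
      fun ξ hξ j q hq hq' => ?_⟩
    have h0 := T.eR_lt_R.trans_le hq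
    refine mono (nr_of_it ((T.cd_rW _ h0).of_le two_le_infty) (fun i hi => ?_) (min_le_right _ _))
    have a1 := h1 T hT j q (hR.trans hq) i hi
    have a2 := h2 ξ j q (by linarith) (by linarith) i hi
    have c1 : ContDiffAt ℝ i (fun y => T.rS j y - ((√2 : ℝ) : ℂ)) q :=
      ((T.cd_rS h0).sub contDiffAt_const).of_le (by exact_mod_cast le_top)
    have c2 : ContDiffAt ℝ i (fun y => T.rW j (F.w ξ) y - T.rS j y) q :=
      ((T.cd_rW _ h0).sub (T.cd_rS h0)).of_le (by exact_mod_cast le_top)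
    have e1 : (fun y => T.rW j (F.w ξ) y - ((√2 : ℝ) : ℂ)) =
        (fun y => T.rW j (F.w ξ) y - T.rS j y) + fun y => T.rS j y - ((√2 : ℝ) : ℂ) :=
      funext fun y => by simp
    rw [e1, iteratedFDeriv_add_apply c2 c1]
    rw [lt_div_iff₀ hC] at hξ
    refine (norm_add_le _ _).trans ?_
    nlinarith

end Crest.Agent.N250.R0

end
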